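import Crest.Agent.X261.Hc.DemB

/-!
# Row 261, package HC (helper17), file `Dem`: the Hoermander-Demailly theorem with a vanishing
loss of curvature and moving data on a complete Kaehler manifold

* `Cq h K Φ e i x v` : the curvature form of `h e^{-Φ}` plus `e K`;
* `Dat` : the data at one level `ε`;  `Dat.dual` : the dual inequality;
* `sol_of_dual` : solution from the dual inequality;  `hoer_dem` : the theorem.
-/

set_option autoImplicit false
set_option linter.unusedSectionVars false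

open Set Filter Topology Complex Matrix MeasureTheory
open scoped ContDiff Matrix ComplexConjugate ComplexOrder ENNReal

namespace Crest.Agent.X261.Hc

open Crest.Agent.R275 Crest.Agent.R275.Geo Crest.Agent.R275.Core144
open Crest.Agent.R273.Defs_333 Crest.Agent.R273.Kah_333 Crest.Agent.R273.Vm_333
open Crest.Agent.R273.HM_333 (tw)
open Crest.Agent.T223.Hm Crest.Agent.T223.Hm.H85
open Crest.Agent.X277.AN (qf qf_add)

noncomputable section

variable {n : ℕ} {M : Type} [TopologicalSpace M] {A : Atl n M} {N : LB A}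

/-- the curvature form of `h e^{-Φ}` with the loss `e` -/
def Cq {L : LB A} (h : HM L) (K : Kah A) (Φ : M → ℝ) (e : ℝ) (i : A.ι) (x : M)
    (v : Fin n → ℂ) : ℝ :=
  qf (cur h i x) v + qf (hsf A Φ i x) v + e * qf (K.g i x) v

variable [Countable A.ι] [T2Space M] [MeasurableSpace M] [BorelSpace M]

/-- decreasing weights `Φ`, losses `ε + lam`, data `G` with `|∂̄ G|² ≤ κ`, `∫ κ ≤ D` -/
structure Dat (h : HM ((KB A)⁻¹ * N)) (vol : HM (KB A)⁻¹) (K : Kah A) (ε D : ℝ)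
    (Φ lam κ : ℕ → M → ℝ) (G : ℕ → A.ι → M → ℂ) : Prop where
  sm : ∀ μ, A.Sm (Φ μ)
  anti : ∀ x, Antitone fun μ => Φ μ x
  lm : ∀ μ, Measurable (lam μ)
  l0 : ∀ μ x, 0 ≤ lam μ x
  lb : ∃ C, ∀ μ x, lam μ x ≤ C
  lim : ∀ᵐ x ∂(vm vol), Tendsto (fun μ => lam μ x) atTop (𝓝 0)
  pos : ∀ μ i, ∀ x ∈ (A.e i).source, ∀ v, 0 ≤ Cq h K (Φ μ) (ε + lam μ x) i x v
  Gs : ∀ μ, IsS N (G μ)
  Gc : ∀ μ, Cs (G μ)
  km : ∀ μ, Measurable (κ μ)
  k0 : ∀ μ x, 0 ≤ κ μ x
  kD : ∀ μ, ∫⁻ x, ENNReal.ofReal (κ μ x) ∂(vm vol) ≤ ENNReal.ofReal D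
  db : ∀ μ i, ∀ x ∈ (A.e i).source, ∀ v : Fin n → ℂ,
    h.w i x * Real.exp (-Φ μ x) * ‖star v ⬝ᵥ dbs (G μ) i x‖ ^ 2 ≤
      κ μ x * vol.w i x * Cq h K (Φ μ) (ε + lam μ x) i x v

variable {h : HM ((KB A)⁻¹ * N)} {vol : HM (KB A)⁻¹} {K : Kah A}

theorem norm_exp_smul {W : Type*} [NormedAddCommGroup W] [NormedSpace ℂ W] (t : ℝ) (a : W) :
    ‖((Real.exp (t / 2) : ℝ) : ℂ) • a‖ ^ 2 = Real.exp t * ‖a‖ ^ 2 := by
  rw [norm_smul, mul_pow, Complex.norm_real, Real.norm_eq_abs, sq_abs, sq, ← Real.exp_add,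
    add_halves]

theorem Dat.dual {ε D : ℝ} {Φ lam κ : ℕ → M → ℝ} {G : ℕ → A.ι → M → ℂ}
    (H : Dat h vol K ε D Φ lam κ G) (P : Part A) (hcut : Cut K) (hε : 0 ≤ ε) (hD : 0 ≤ D)
    {C0 : ℝ} (hC0 : ∀ x, Φ 0 x ≤ C0) (w : TF N) {q : ℂ}
    (hq : Tendsto (fun μ => ∫ x, conj (r1 h vol (dv h w.1) x) * r1 h vol (G μ) x ∂(vm vol))
      atTop (𝓝 q)) :
    ‖q‖ ^ 2 ≤ D * (∫ x, Real.exp (Φ 0 x) * ‖r1 h vol (dv h w.1) x‖ ^ 2 ∂(vm vol) +
      ε * (Real.exp C0 * ‖PL h vol K (p1 n) w‖ ^ 2)) := by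
  obtain ⟨Λ, hΛ⟩ := H.lb
  set hh : ℕ → HM ((KB A)⁻¹ * N) := fun μ => tw h (Φ μ) (H.sm μ) with hhh
  have hw0 : ∀ μ i y, h.w i y = (hh μ).w i y * Real.exp (Φ μ y) := fun μ i y => by
    show _ = h.w i y * Real.exp (-Φ μ y) * _
    rw [mul_assoc, ← Real.exp_add, neg_add_cancel, Real.exp_zero, mul_one]
  have hwab : ∀ a b i y, (hh a).w i y = (hh b).w i y * Real.exp (Φ b y - Φ a y) :=
    fun a b i y => by
      show h.w i y * Real.exp (-Φ a y) = h.w i y * Real.exp (-Φ b y) * _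
      rw [mul_assoc, ← Real.exp_add]
      congr 2
      ring
  have hmΦ : ∀ μ, Continuous (Φ μ) := fun μ => sm_continuous (H.sm μ)
  have hΦC : ∀ μ x, Φ μ x ≤ C0 := fun μ x => (H.anti x (Nat.zero_le μ)).trans (hC0 x)
  set wv : ℕ → TF N := fun μ => ⟨ef (Φ μ) w.1, isF_ef (H.sm μ) w.2.1, cs_ef _ w.2.2⟩ with hwv
  set ww : ℕ → Lp (E2 n) 2 (vm vol) := fun μ => PL (hh μ) vol K (p1 n) (wv μ) with hww
  have hwae : ∀ μ, ww μ =ᵐ[vm vol]
      fun x => ((Real.exp (Φ μ x / 2) : ℝ) : ℂ) • r2 h vol K w.1 x := by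
    intro μ
    filter_upwards [PL_ae (hh μ) vol K (p1 n) (wv μ)] with x hx
    rw [hww, hx]
    exact r2_ef (hw0 μ) vol K w.1 x
  have hloss := loss_tendsto (fun μ => NN (hh μ) vol K) ww (fun a b hab g hg => by
    have hm : MemLp (fun x => ((Real.exp ((Φ b x - Φ a x) / 2) : ℝ) : ℂ)) ∞ (vm vol) :=
      memLp_top_real (by fun_prop : Continuous fun x =>
        Real.exp ((Φ b x - Φ a x) / 2)).aestronglyMeasurable (C := 1) fun x => by
          rw [abs_of_pos (Real.exp_pos _), Real.exp_le_one_iff]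
          have := H.anti x hab
          simp only at this
          linarith
    refine ⟨mulL _ hm g, (mem_NN _ vol K).2 fun v hv hv' hz => ?_, ?_, ?_⟩
    · have hs : A.Sm fun y => Φ b y - Φ a y := fun i => (H.sm b i).sub (H.sm a i)
      rw [← (mem_NN _ vol K).1 hg (ef (fun y => Φ b y - Φ a y) v) (isF_ef hs hv) (cs_ef _ hv')
        fun i x hx => by rw [dv_ef (hwab a b), hz i x hx, mul_zero]]
      refine integral_congr_ae ?_
      filter_upwards [mulL_ae _ hm g] with x hx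
      rw [hx, r2_ef (hwab a b), inner_smul_left, inner_smul_right, Complex.conj_ofReal]
    · filter_upwards [mulL_ae _ hm g] with x hx
      rw [hx, norm_smul, Complex.norm_real, Real.norm_of_nonneg (Real.exp_pos _).le]
      refine mul_le_of_le_one_left (norm_nonneg _) (Real.exp_le_one_iff.2 ?_)
      have := H.anti x hab
      simp only at this
      linarith
    · rw [L2.inner_def, L2.inner_def]
      refine integral_congr_ae ?_
      filter_upwards [mulL_ae _ hm g, hwae a, hwae b] with x e1 e2 e3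
      rw [e1, e2, e3, inner_smul_left, inner_smul_right, inner_smul_right, Complex.conj_ofReal,
        ← mul_assoc, ← Complex.ofReal_mul, ← Real.exp_add]
      congr 3
      ring) (fun μ => (H.lm μ).aestronglyMeasurable) H.l0 hΛ H.lim
  have hsq : Integrable (fun x => ‖r1 h vol (dv h w.1) x‖ ^ 2) (vm vol) :=
    (memLp_two_iff_integrable_sq_norm (memLp_dv h vol w.2.1 w.2.2).1).1
      (memLp_dv h vol w.2.1 w.2.2)
  have hbd : ∀ μ x, ‖Real.exp (Φ μ x)‖ ≤ Real.exp C0 := fun μ x => by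
    rw [Real.norm_of_nonneg (Real.exp_pos _).le]
    exact Real.exp_le_exp.2 (hΦC μ x)
  have hexp : ∀ μ, AEStronglyMeasurable (fun x => Real.exp (Φ μ x)) (vm vol) := fun μ =>
    (Real.continuous_exp.comp (hmΦ μ)).aestronglyMeasurable
  have hmain : ∀ μ, ‖∫ x, conj (r1 h vol (dv h w.1) x) * r1 h vol (G μ) x ∂(vm vol)‖ ^ 2 ≤
      D * (∫ x, Real.exp (Φ 0 x) * ‖r1 h vol (dv h w.1) x‖ ^ 2 ∂(vm vol) +
        ε * (Real.exp C0 * ‖PL h vol K (p1 n) w‖ ^ 2) +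
        ∫ x, lam μ x * ‖(NN (hh μ) vol K).starProjection (ww μ) x‖ ^ 2 ∂(vm vol)) := by
    intro μ
    have hc : ∀ i, ∀ x ∈ (A.e i).source, ∀ v, qf (cur (hh μ) i x) v +
        (ε + lam μ x) * qf (K.g i x) v = Cq h K (Φ μ) (ε + lam μ x) i x v := fun i x hx v => by
      rw [hhh, cur_tw h (H.sm μ) i hx, qf_add, Cq]
    have h1 := est (hh μ) vol K P hcut (l := fun x => ε + lam μ x) ((H.lm μ).const_add ε)
      (fun x => add_nonneg hε (H.l0 μ x)) (Λ := ε + Λ) (fun x => by linarith [hΛ μ x])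
      (fun i x hx v => by rw [hc i x hx]; exact H.pos μ i x hx v) (H.Gs μ) (H.Gc μ) (H.km μ)
      (H.k0 μ) hD (H.kD μ) (fun i x hx v => by rw [hc i x hx]; exact H.db μ i x hx v) (wv μ)
    have e1 : ∀ x, conj (r1 (hh μ) vol (dv (hh μ) (wv μ).1) x) * r1 (hh μ) vol (G μ) x =
        conj (r1 h vol (dv h w.1) x) * r1 h vol (G μ) x := fun x => by
      rw [r1_chg (hw0 μ) vol (G μ), hwv, r1_dv_ef (hw0 μ), map_mul, Complex.conj_ofReal]
      ring
    have e2 : ∀ x, ‖r1 (hh μ) vol (dv (hh μ) (wv μ).1) x‖ ^ 2 =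
        Real.exp (Φ μ x) * ‖r1 h vol (dv h w.1) x‖ ^ 2 := fun x => by
      rw [hwv, r1_dv_ef (hw0 μ), ← smul_eq_mul, norm_exp_smul]
    simp only [e1, e2] at h1
    refine h1.trans (mul_le_mul_of_nonneg_left ?_ hD)
    set y := (NN (hh μ) vol K).starProjection (ww μ) with hy
    have i1 : Integrable (fun x => ε * ‖y x‖ ^ 2) (vm vol) := (int_sq y).const_mul ε
    have i2 : Integrable (fun x => lam μ x * ‖y x‖ ^ 2) (vm vol) :=
      int_mul_sq (H.lm μ).aestronglyMeasurable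
        (fun x => by rw [abs_of_nonneg (H.l0 μ x)]; exact hΛ μ x) y
    simp only [add_mul]
    rw [integral_add i1 i2, integral_const_mul, ← norm_sq_Lp, ← add_assoc]
    refine add_le_add_left (add_le_add ?_ (mul_le_mul_of_nonneg_left ?_ hε)) _
    · exact integral_mono (hsq.bdd_mul (hexp μ) (Eventually.of_forall (hbd μ)))
        (hsq.bdd_mul (hexp 0) (Eventually.of_forall (hbd 0))) fun x =>
        mul_le_mul_of_nonneg_right (Real.exp_le_exp.2 (H.anti x (Nat.zero_le μ))) (sq_nonneg _)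
    · refine (pow_le_pow_left₀ (norm_nonneg _)
        ((NN (hh μ) vol K).norm_starProjection_apply_le (ww μ)) 2).trans ?_
      rw [norm_sq_Lp, norm_sq_Lp, ← integral_const_mul]
      refine integral_mono_ae (int_sq _) ((int_sq _).const_mul _) ?_
      filter_upwards [hwae μ, PL_ae h vol K (p1 n) w] with x e3 e4
      rw [e3, e4, norm_exp_smul]
      exact mul_le_mul_of_nonneg_right (Real.exp_le_exp.2 (hΦC μ x)) (sq_nonneg _)
  have l2 := (hloss.const_add (∫ x, Real.exp (Φ 0 x) * ‖r1 h vol (dv h w.1) x‖ ^ 2 ∂(vm vol) +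
    ε * (Real.exp C0 * ‖PL h vol K (p1 n) w‖ ^ 2))).const_mul D
  rw [add_zero] at l2
  exact le_of_tendsto_of_tendsto' (hq.norm.pow 2) l2 hmain

/-- a solution from the dual inequality -/
theorem sol_of_dual (K : Kah A) {q0 : M → ℂ} (hq0 : MemLp q0 2 (vm vol)) {ρ : M → ℝ}
    (hρ : Measurable ρ) (h0 : ∀ x, 0 ≤ ρ x) {C1 : ℝ} (h1 : ∀ x, ρ x ≤ C1) {D : ℝ} (hD : 0 ≤ D)
    (H : ∀ w : TF N, ‖∫ x, conj (r1 h vol (dv h w.1) x) * q0 x ∂(vm vol)‖ ^ 2 ≤
      D * ∫ x, ρ x * ‖r1 h vol (dv h w.1) x‖ ^ 2 ∂(vm vol)) :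
    ∃ F : A.ι → M → ℂ, IsS N F ∧ (∀ i, HolAt A i univ (F i)) ∧
      ∫⁻ x, ENNReal.ofReal (‖r1 h vol F x - q0 x‖ ^ 2) / ENNReal.ofReal (ρ x) ∂(vm vol) ≤
        ENNReal.ofReal D := by
  have hm := sqrt_mem (μ := vm vol) hρ.aestronglyMeasurable h1
  obtain ⟨u, hu, hu'⟩ := R271.H361.riesz_of_bound (PL h vol K (p2 n))
    ((mulL (E := ℂ) _ hm).toLinearMap ∘ₗ PL h vol K (p2 n)) (hq0.toLp _) hD fun w => by
      rw [norm_inner_symm, inner_p2, norm_neg]
      have e1 : ∫ x, conj (r1 h vol (dv h w.1) x) * (hq0.toLp _ : M → ℂ) x ∂(vm vol) =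
          ∫ x, conj (r1 h vol (dv h w.1) x) * q0 x ∂(vm vol) := by
        refine integral_congr_ae ?_
        filter_upwards [hq0.coeFn_toLp] with x hx
        rw [hx]
      rw [e1]
      refine (H w).trans (le_of_eq ?_)
      show _ = D * ‖mulL _ hm (PL h vol K (p2 n) w)‖ ^ 2
      rw [norm_mulL_sqrt h0]
      congr 1
      refine integral_congr_ae ?_
      filter_upwards [PL_ae h vol K (p2 n) w] with x hx
      rw [hx, ← norm_neg (r1 h vol (dv h w.1) x)]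
      rfl
  obtain ⟨F, hF, hF', hq⟩ := reg n M A N h vol (hq0.toLp _ - mulL _ hm u : Lp ℂ 2 _)
    (Lp.memLp _) fun v hv hv' => by
      have e1 : inner ℂ (mulL _ hm u) (PL h vol K (p2 n) ⟨v, hv, hv'⟩) =
          inner ℂ u (mulL _ hm (PL h vol K (p2 n) ⟨v, hv, hv'⟩)) := by
        rw [L2.inner_def, L2.inner_def]
        refine integral_congr_ae ?_
        filter_upwards [mulL_ae _ hm u, mulL_ae _ hm (PL h vol K (p2 n) ⟨v, hv, hv'⟩)] with x a b
        rw [a, b, inner_smul_left, inner_smul_right, Complex.conj_ofReal]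
      have e2 := hu' ⟨v, hv, hv'⟩
      rw [← neg_eq_zero, ← inner_p2 h vol K ⟨v, hv, hv'⟩, ← inner_conj_symm, inner_sub_left, e1,
        ← e2]
      simp
  refine ⟨F, hF, hF', ?_⟩
  have h2 : ∀ᵐ x ∂(vm vol), ENNReal.ofReal (‖r1 h vol F x - q0 x‖ ^ 2) / ENNReal.ofReal (ρ x) ≤
      ENNReal.ofReal (‖u x‖ ^ 2) := by
    filter_upwards [hq, Lp.coeFn_sub (hq0.toLp _) (mulL _ hm u), hq0.coeFn_toLp, mulL_ae _ hm u]
      with x e1 e2 e3 e4
    rw [e2, Pi.sub_apply, e3, e4] at e1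
    rw [← e1, sub_sub_cancel_left, norm_neg, norm_smul, mul_pow, Complex.norm_real,
      Real.norm_eq_abs, sq_abs, Real.sq_sqrt (h0 x), ENNReal.ofReal_mul (h0 x)]
    exact ENNReal.div_le_of_le_mul' le_rfl
  refine (lintegral_mono_ae h2).trans ?_
  rw [← ofReal_integral_eq_lintegral_ofReal (int_sq u) (Eventually.of_forall fun _ => sq_nonneg _),
    ← norm_sq_Lp]
  exact ENNReal.ofReal_le_ofReal hu

theorem r1_sub (s t : A.ι → M → ℂ) (x : M) :
    r1 h vol (s - t) x = r1 h vol s x - r1 h vol t x := by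
  rw [r1, r1, r1, Pi.sub_apply, Pi.sub_apply, mul_sub]

/-- **the Hoermander-Demailly theorem** : `ρ ≥ limsup e^{Φ ν 0}`, the data `G ν μ` tend to `G0` -/
theorem hoer_dem (P : Part A) (hcut : Cut K) {ε : ℕ → ℝ} {D : ℝ} {Φ lam κ : ℕ → ℕ → M → ℝ}
    {G : ℕ → ℕ → A.ι → M → ℂ} (H : ∀ ν, Dat h vol K (ε ν) D (Φ ν) (lam ν) (κ ν) (G ν))
    (hε : ∀ ν, 0 ≤ ε ν) (hε0 : Tendsto ε atTop (𝓝 0)) (hD : 0 ≤ D)
    {C0 : ℝ} (hC0 : ∀ ν x, Φ ν 0 x ≤ C0)
    {C : Set M} (hC : IsCompact C) (hGC : ∀ ν μ i, ∀ x ∉ C, G ν μ i x = 0) {B : ℝ}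
    (hGB : ∀ ν μ x, gl vol (fun i y => h.w i y * ‖G ν μ i y‖ ^ 2) x ≤ B) {G0 : A.ι → M → ℂ}
    (hG0 : ∀ ν, ∀ᵐ x ∂(vm vol),
      Tendsto (fun μ => G ν μ (ix A x) x) atTop (𝓝 (G0 (ix A x) x)))
    {ρ : M → ℝ} (hρ : Measurable ρ) (h0 : ∀ x, 0 ≤ ρ x) {C1 : ℝ} (h1 : ∀ x, ρ x ≤ C1)
    (hρl : ∀ᵐ x ∂(vm vol), ∀ δ > 0, ∀ᶠ ν in atTop, Real.exp (Φ ν 0 x) ≤ ρ x + δ) :
    ∃ F : A.ι → M → ℂ, IsS N F ∧ (∀ i, HolAt A i univ (F i)) ∧
      ∫⁻ x, ENNReal.ofReal (gl vol (fun i y => h.w i y * ‖F i y - G0 i y‖ ^ 2) x) /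
        ENNReal.ofReal (ρ x) ∂(vm vol) ≤ ENNReal.ofReal D := by
  have := isLocallyFinite_vm vol
  set b : M → ℝ := C.indicator fun _ => Real.sqrt B with hb
  have hbL : MemLp b 2 (vm vol) :=
    memLp_indicator_const 2 hC.measurableSet _ (Or.inr hC.measure_lt_top.ne)
  have hGb : ∀ ν μ x, ‖r1 h vol (G ν μ) x‖ ≤ b x := fun ν μ x => by
    by_cases hx : x ∈ C
    · rw [hb, indicator_of_mem hx]
      exact Real.le_sqrt_of_sq_le (by rw [norm_r1]; exact hGB ν μ x)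
    · rw [hb, indicator_of_notMem hx, r1, hGC ν μ _ x hx, mul_zero, norm_zero]
  have hGm : ∀ ν μ, AEStronglyMeasurable (r1 h vol (G ν μ)) (vm vol) := fun ν μ =>
    aesm_r1 h vol ((H ν).Gs μ).sm _
  have hGl : ∀ ν, ∀ᵐ x ∂(vm vol),
      Tendsto (fun μ => r1 h vol (G ν μ) x) atTop (𝓝 (r1 h vol G0 x)) := fun ν =>
    (hG0 ν).mono fun x hx => hx.const_mul _
  have hq0 : MemLp (r1 h vol G0) 2 (vm vol) :=
    hbL.mono' (aestronglyMeasurable_of_tendsto_ae atTop (hGm 0) (hGl 0))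
      ((hGl 0).mono fun x hx => le_of_tendsto' hx.norm fun μ => hGb 0 μ x)
  obtain ⟨F, hF, hF', hI⟩ := sol_of_dual (h := h) K hq0 hρ h0 h1 hD fun w => by
    have hw := memLp_dv h vol w.2.1 w.2.2
    have hsq : Integrable (fun x => ‖r1 h vol (dv h w.1) x‖ ^ 2) (vm vol) :=
      (memLp_two_iff_integrable_sq_norm hw.1).1 hw
    have hcj : AEStronglyMeasurable (fun x => conj (r1 h vol (dv h w.1) x)) (vm vol) :=
      Complex.continuous_conj.comp_aestronglyMeasurable hw.1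
    have a1 : ∀ ν, ‖∫ x, conj (r1 h vol (dv h w.1) x) * r1 h vol G0 x ∂(vm vol)‖ ^ 2 ≤
        D * (∫ x, Real.exp (Φ ν 0 x) * ‖r1 h vol (dv h w.1) x‖ ^ 2 ∂(vm vol) +
          ε ν * (Real.exp C0 * ‖PL h vol K (p1 n) w‖ ^ 2)) := fun ν =>
      (H ν).dual P hcut (hε ν) hD (hC0 ν) w
        (tendsto_integral_of_dominated_convergence (fun x => ‖r1 h vol (dv h w.1) x‖ * b x)
          (fun μ => hcj.mul (hGm ν μ)) (hw.norm.integrable_mul hbL)
          (fun μ => Eventually.of_forall fun x => by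
            rw [norm_mul, Complex.norm_conj]
            exact mul_le_mul_of_nonneg_left (hGb ν μ x) (norm_nonneg _))
          ((hGl ν).mono fun x hx => hx.const_mul _))
    have hem : ∀ ν, AEStronglyMeasurable (fun x => max (Real.exp (Φ ν 0 x)) (ρ x)) (vm vol) :=
      fun ν => ((Real.continuous_exp.comp (sm_continuous ((H ν).sm 0))).measurable.max
        hρ).aestronglyMeasurable
    have heb : ∀ ν x, ‖max (Real.exp (Φ ν 0 x)) (ρ x)‖ ≤ max (Real.exp C0) C1 := fun ν x => by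
      rw [Real.norm_of_nonneg (le_max_of_le_right (h0 x))]
      exact max_le_max (Real.exp_le_exp.2 (hC0 ν x)) (h1 x)
    have a2 : Tendsto (fun ν => ∫ x, max (Real.exp (Φ ν 0 x)) (ρ x) *
        ‖r1 h vol (dv h w.1) x‖ ^ 2 ∂(vm vol)) atTop
        (𝓝 (∫ x, ρ x * ‖r1 h vol (dv h w.1) x‖ ^ 2 ∂(vm vol))) := by
      refine tendsto_integral_of_dominated_convergence
        (fun x => max (Real.exp C0) C1 * ‖r1 h vol (dv h w.1) x‖ ^ 2)
        (fun ν => (hem ν).mul hsq.1) (hsq.const_mul _)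
        (fun ν => Eventually.of_forall fun x => ?_) ?_
      · rw [norm_mul, Real.norm_of_nonneg (sq_nonneg _)]
        exact mul_le_mul_of_nonneg_right (heb ν x) (sq_nonneg _)
      · filter_upwards [hρl] with x hx
        refine Tendsto.mul_const _ (tendsto_order.2 ⟨fun a ha => Eventually.of_forall fun ν =>
          ha.trans_le (le_max_right _ _), fun a ha => ?_⟩)
        filter_upwards [hx ((a - ρ x) / 2) (by linarith)] with ν hν
        exact max_lt (by linarith) ha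
    have a3 := (a2.add (hε0.mul_const (Real.exp C0 * ‖PL h vol K (p1 n) w‖ ^ 2))).const_mul D
    rw [zero_mul, add_zero] at a3
    refine ge_of_tendsto' a3 fun ν => (a1 ν).trans (mul_le_mul_of_nonneg_left
      (add_le_add_left (integral_mono ?_ (hsq.bdd_mul (hem ν) (Eventually.of_forall (heb ν)))
        fun x => mul_le_mul_of_nonneg_right (le_max_left _ _) (sq_nonneg _)) _) hD)
    exact hsq.bdd_mul (Real.continuous_exp.comp (sm_continuous ((H ν).sm 0))).aestronglyMeasurable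
      (c := Real.exp C0) (Eventually.of_forall fun x => by
        rw [Real.norm_of_nonneg (Real.exp_pos _).le]
        exact Real.exp_le_exp.2 (hC0 ν x))
  refine ⟨F, hF, hF', le_trans (le_of_eq (lintegral_congr fun x => ?_)) hI⟩
  rw [← r1_sub, norm_r1]
  rfl

end

end Crest.Agent.X261.Hc
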