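import Crest.Agent.T223.HmH_85

/-!
# Row 261, package HC (helper17), file `DemA`: the `L²` part of Demailly's limit argument

* `mulL m hm` : multiplication by a bounded measurable function on `L²`;
* `loss_tendsto` : the loss `∫ λ_b |P_b w_b|²` tends to zero along a decreasing family of
  weighted spaces.
-/

set_option autoImplicit false
set_option linter.unusedSectionVars false

open Set Filter Topology Complex MeasureTheory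
open scoped ENNReal InnerProductSpace

namespace Crest.Agent.X261.Hc

open Crest.Agent.T223.Hm.H85 (norm_sq_Lp)

noncomputable section

variable {X : Type*} [MeasurableSpace X] {μ : Measure X} {E : Type*} [NormedAddCommGroup E]
  [InnerProductSpace ℂ E]

theorem memLp_top_real {m : X → ℝ} (hm : AEStronglyMeasurable m μ) {C : ℝ}
    (hC : ∀ x, |m x| ≤ C) : MemLp (fun x => (m x : ℂ)) ∞ μ :=
  memLp_top_of_bound (Complex.continuous_ofReal.comp_aestronglyMeasurable hm) C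
    (Eventually.of_forall fun x => by rw [Complex.norm_real]; exact hC x)

/-- multiplication by a bounded function -/
def mulL (m : X → ℝ) (hm : MemLp (fun x => (m x : ℂ)) ∞ μ) : Lp E 2 μ →L[ℂ] Lp E 2 μ :=
  (ContinuousLinearMap.lsmul ℂ ℂ : ℂ →L[ℂ] E →L[ℂ] E).holderL μ ∞ 2 2 (hm.toLp _)

theorem mulL_ae (m : X → ℝ) (hm : MemLp (fun x => (m x : ℂ)) ∞ μ) (g : Lp E 2 μ) :
    mulL m hm g =ᵐ[μ] fun x => (m x : ℂ) • g x := by
  filter_upwards [(ContinuousLinearMap.lsmul ℂ ℂ : ℂ →L[ℂ] E →L[ℂ] E).coeFn_holder (r := 2)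
    (hm.toLp _) g, hm.coeFn_toLp] with x h1 h2
  refine h1.trans ?_
  rw [h2]
  rfl

theorem int_sq (g : Lp E 2 μ) : Integrable (fun x => ‖g x‖ ^ 2) μ :=
  (memLp_two_iff_integrable_sq_norm (Lp.aestronglyMeasurable g)).1 (Lp.memLp g)

theorem int_mul_sq {l : X → ℝ} (hl : AEStronglyMeasurable l μ) {C : ℝ} (hC : ∀ x, |l x| ≤ C)
    (g : Lp E 2 μ) : Integrable (fun x => l x * ‖g x‖ ^ 2) μ :=
  (int_sq g).bdd_mul hl (Eventually.of_forall fun x => by rw [Real.norm_eq_abs]; exact hC x)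

theorem sqrt_mem {l : X → ℝ} (hl : AEStronglyMeasurable l μ) {C : ℝ} (hC : ∀ x, l x ≤ C) :
    MemLp (fun x => ((Real.sqrt (l x) : ℝ) : ℂ)) ∞ μ :=
  memLp_top_real (Real.continuous_sqrt.comp_aestronglyMeasurable hl) (C := Real.sqrt C)
    fun x => by
      rw [abs_of_nonneg (Real.sqrt_nonneg _)]
      exact Real.sqrt_le_sqrt (hC x)

theorem norm_mulL_sqrt {l : X → ℝ} (h0 : ∀ x, 0 ≤ l x)
    (hm : MemLp (fun x => ((Real.sqrt (l x) : ℝ) : ℂ)) ∞ μ) (g : Lp E 2 μ) :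
    ‖mulL (fun x => Real.sqrt (l x)) hm g‖ ^ 2 = ∫ x, l x * ‖g x‖ ^ 2 ∂μ := by
  rw [norm_sq_Lp]
  refine integral_congr_ae ?_
  filter_upwards [mulL_ae (fun x => Real.sqrt (l x)) hm g] with x hx
  rw [hx, norm_smul, mul_pow, Complex.norm_real, Real.norm_eq_abs, sq_abs, Real.sq_sqrt (h0 x)]

theorem tendsto_loss {l : X → ℝ} (hl : AEStronglyMeasurable l μ) (h0 : ∀ x, 0 ≤ l x) {C : ℝ}
    (hC : ∀ x, l x ≤ C) {f : ℕ → Lp E 2 μ} {g : Lp E 2 μ} (hf : Tendsto f atTop (𝓝 g)) :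
    Tendsto (fun k => ∫ x, l x * ‖f k x‖ ^ 2 ∂μ) atTop (𝓝 (∫ x, l x * ‖g x‖ ^ 2 ∂μ)) := by
  have h1 := (((mulL (E := E) _ (sqrt_mem hl hC)).continuous.tendsto g).comp hf).norm.pow 2
  simp only [Function.comp_def, norm_mulL_sqrt h0] at h1
  exact h1

variable [CompleteSpace E]

/-- **Demailly's limit argument** -/
theorem loss_tendsto (Nn : ℕ → Submodule ℂ (Lp E 2 μ)) [∀ b, (Nn b).HasOrthogonalProjection]
    (w : ℕ → Lp E 2 μ)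
    (hI : ∀ a b, a ≤ b → ∀ g ∈ Nn b, ∃ g' ∈ Nn a, (∀ᵐ x ∂μ, ‖g' x‖ ≤ ‖g x‖) ∧
      ⟪g', w a⟫_ℂ = ⟪g, w b⟫_ℂ)
    {lam : ℕ → X → ℝ} (hm : ∀ b, AEStronglyMeasurable (lam b) μ) (h0 : ∀ b x, 0 ≤ lam b x) {Λ : ℝ}
    (hΛ : ∀ b x, lam b x ≤ Λ) (hl : ∀ᵐ x ∂μ, Tendsto (fun b => lam b x) atTop (𝓝 0)) :
    Tendsto (fun b => ∫ x, lam b x * ‖(Nn b).starProjection (w b) x‖ ^ 2 ∂μ) atTop (𝓝 0) := by
  set y : ℕ → Lp E 2 μ := fun b => (Nn b).starProjection (w b) with hy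
  have habs : ∀ b x, |lam b x| ≤ Λ := fun b x => by rw [abs_of_nonneg (h0 b x)]; exact hΛ b x
  have hyN : ∀ b, y b ∈ Nn b := fun b => Submodule.starProjection_apply_mem _ _
  have hproj : ∀ b, ∀ g ∈ Nn b, ⟪g, y b⟫_ℂ = ⟪g, w b⟫_ℂ := by
    intro b g hg
    have h1 : ⟪g, w b - y b⟫_ℂ = 0 :=
      (Submodule.sub_starProjection_mem_orthogonal (K := Nn b) (w b)) g hg
    rw [inner_sub_right, sub_eq_zero] at h1
    exact h1.symm
  have key : ∀ a b, a ≤ b → ∃ g' : Lp E 2 μ, (∀ᵐ x ∂μ, ‖g' x‖ ≤ ‖y b x‖) ∧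
      ‖g' - y a‖ ^ 2 + (‖y b‖ ^ 2 - ‖g'‖ ^ 2) = ‖y a‖ ^ 2 - ‖y b‖ ^ 2 := by
    intro a b hab
    obtain ⟨g', h1, h2, h3⟩ := hI a b hab (y b) (hyN b)
    refine ⟨g', h2, ?_⟩
    rw [← hproj a g' h1, ← hproj b (y b) (hyN b)] at h3
    rw [norm_sub_sq (𝕜 := ℂ), h3, inner_self_eq_norm_sq]
    ring
  have hle : ∀ {g g' : Lp E 2 μ}, (∀ᵐ x ∂μ, ‖g' x‖ ≤ ‖g x‖) → ‖g'‖ ^ 2 ≤ ‖g‖ ^ 2 := fun h =>
    pow_le_pow_left₀ (norm_nonneg _) (Lp.norm_le_norm_of_ae_le h) 2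
  have hΛ' : ∀ δ : ℝ, 0 < δ → ∃ a, ∀ b, ‖y a‖ ^ 2 ≤ ‖y b‖ ^ 2 + δ := by
    intro δ hδ
    have hb : BddBelow (Set.range fun b => ‖y b‖ ^ 2) :=
      ⟨0, by rintro _ ⟨b, rfl⟩; exact sq_nonneg _⟩
    obtain ⟨_, ⟨a, rfl⟩, h1⟩ := exists_lt_of_csInf_lt (Set.range_nonempty fun b => ‖y b‖ ^ 2)
      (lt_add_of_pos_right _ hδ)
    exact ⟨a, fun b => by linarith [csInf_le hb ⟨b, rfl⟩]⟩
  rw [Metric.tendsto_atTop]
  intro η hη
  set δ : ℝ := η / (4 * (|Λ| + 1)) with hδ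
  have hδ0 : 0 < δ := by positivity
  obtain ⟨a, ha⟩ := hΛ' δ hδ0
  have h1 : Tendsto (fun b => ∫ x, lam b x * ‖y a x‖ ^ 2 ∂μ) atTop (𝓝 (∫ _x, (0 : ℝ) ∂μ)) := by
    refine tendsto_integral_of_dominated_convergence (fun x => Λ * ‖y a x‖ ^ 2)
      (fun b => (int_mul_sq (hm b) (habs b) (y a)).1) ((int_sq (y a)).const_mul Λ)
      (fun b => Eventually.of_forall fun x => ?_) ?_
    · rw [Real.norm_of_nonneg (mul_nonneg (h0 b x) (sq_nonneg _))]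
      exact mul_le_mul_of_nonneg_right (hΛ b x) (sq_nonneg _)
    · filter_upwards [hl] with x hx
      simpa using hx.mul_const (‖y a x‖ ^ 2)
  rw [integral_zero] at h1
  obtain ⟨b0, hb0⟩ := Metric.tendsto_atTop.1 h1 (η / 4) (by positivity)
  refine ⟨max a b0, fun b hb => ?_⟩
  have h2 := hb0 b (le_of_max_le_right hb)
  rw [Real.dist_eq, sub_zero] at h2 ⊢
  obtain ⟨g', h3, h4⟩ := key a b (le_of_max_le_left hb)
  have h5 := hle h3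
  have h6 : ∫ x, lam b x * ‖y b x‖ ^ 2 ∂μ ≤ ∫ x, (|Λ| * (‖y b x‖ ^ 2 - ‖g' x‖ ^ 2) +
      2 * |Λ| * ‖(g' - y a : Lp E 2 μ) x‖ ^ 2 + 2 * (lam b x * ‖y a x‖ ^ 2)) ∂μ := by
    refine integral_mono_ae (int_mul_sq (hm b) (habs b) _)
      (((((int_sq _).sub (int_sq _)).const_mul _).add ((int_sq _).const_mul _)).add
        ((int_mul_sq (hm b) (habs b) _).const_mul _)) ?_
    filter_upwards [h3, Lp.coeFn_sub g' (y a)] with x e1 e2
    rw [e2, Pi.sub_apply]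
    have e3 : ‖g' x‖ ≤ ‖g' x - y a x‖ + ‖y a x‖ := by
      simpa using norm_add_le (g' x - y a x) (y a x)
    have e4 : ‖g' x‖ ^ 2 ≤ 2 * ‖g' x - y a x‖ ^ 2 + 2 * ‖y a x‖ ^ 2 := by
      have := pow_le_pow_left₀ (norm_nonneg _) e3 2
      nlinarith [sq_nonneg (‖g' x - y a x‖ - ‖y a x‖)]
    have e5 : 0 ≤ ‖y b x‖ ^ 2 - ‖g' x‖ ^ 2 :=
      sub_nonneg.2 (pow_le_pow_left₀ (norm_nonneg _) e1 2)
    have e6 : lam b x ≤ |Λ| := (hΛ b x).trans (le_abs_self _)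
    have e7 := mul_le_mul_of_nonneg_right e6 e5
    have e8 := mul_le_mul_of_nonneg_left e4 (h0 b x)
    have e9 := mul_le_mul_of_nonneg_right e6 (sq_nonneg ‖g' x - y a x‖)
    nlinarith
  have i0 : Integrable (fun x => ‖y b x‖ ^ 2 - ‖g' x‖ ^ 2) μ := (int_sq _).sub (int_sq _)
  have i1 : Integrable (fun x => |Λ| * (‖y b x‖ ^ 2 - ‖g' x‖ ^ 2)) μ := i0.const_mul _
  have i2 : Integrable (fun x => 2 * |Λ| * ‖(g' - y a : Lp E 2 μ) x‖ ^ 2) μ :=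
    (int_sq _).const_mul _
  have i3 : Integrable (fun x => |Λ| * (‖y b x‖ ^ 2 - ‖g' x‖ ^ 2) +
      2 * |Λ| * ‖(g' - y a : Lp E 2 μ) x‖ ^ 2) μ := i1.add i2
  rw [integral_add i3 ((int_mul_sq (hm b) (habs b) _).const_mul _), integral_add i1 i2,
    integral_const_mul, integral_const_mul, integral_const_mul,
    integral_sub (int_sq _) (int_sq _), ← norm_sq_Lp, ← norm_sq_Lp, ← norm_sq_Lp] at h6
  have h7 : 0 ≤ ∫ x, lam b x * ‖y b x‖ ^ 2 ∂μ :=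
    integral_nonneg fun x => mul_nonneg (h0 b x) (sq_nonneg _)
  rw [abs_of_nonneg h7]
  have h8 := ha b
  have h9 : |Λ| * (‖y b‖ ^ 2 - ‖g'‖ ^ 2) + 2 * |Λ| * ‖g' - y a‖ ^ 2 ≤ 2 * |Λ| * δ := by
    have e1 := abs_nonneg Λ
    have e2 := sq_nonneg ‖g' - y a‖
    nlinarith [mul_nonneg e1 (sub_nonneg.2 h5)]
  have h10 : 2 * |Λ| * δ ≤ η / 2 := by
    have e1 : δ * (4 * (|Λ| + 1)) = η := div_mul_cancel₀ _ (by positivity)
    nlinarith [abs_nonneg Λ]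
  have h11 := (abs_lt.1 h2).2
  linarith

end

end Crest.Agent.X261.Hc
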