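import Crest.Agent.X261.Hc.DemA
import Crest.Agent.T223.Hm9_77
import Crest.Agent.X277.AN.Defs

/-!
# Row 261, package HC (helper17), file `DemB`: the a priori estimate with a loss of curvature on
a complete Kaehler manifold

* `ef g v` : the field `e^g v`; change of the metric by `e^g`;
* `NN h vol K` : the weakly `∂̄`-closed forms;
* `est` : the estimate for the projection of a test field.
-/

set_option autoImplicit false
set_option linter.unusedSectionVars false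

open Set Filter Topology Complex Matrix MeasureTheory
open scoped ContDiff Matrix ComplexConjugate ComplexOrder ENNReal

namespace Crest.Agent.X261.Hc

open Crest.Agent.R275 Crest.Agent.R275.Geo Crest.Agent.R275.Core144
open Crest.Agent.R273.Defs_333 Crest.Agent.R273.Kah_333 Crest.Agent.R273.Vm_333
open Crest.Agent.T223.Hm Crest.Agent.T223.Hm.H85
open Crest.Agent.X277.AN (qf)

noncomputable section

variable {n : ℕ} {M : Type} [TopologicalSpace M] {A : Atl n M} {N : LB A}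

theorem hq_eq_qf (P : Mx n) (v : Fin n → ℂ) : hq P v = qf P v := by
  unfold hq qf
  congr 1
  simp only [dotProduct, Matrix.mulVec, Matrix.transpose_apply, Pi.star_apply, Finset.mul_sum,
    RCLike.star_def]
  rw [Finset.sum_comm]
  exact Finset.sum_congr rfl fun a _ => Finset.sum_congr rfl fun c _ => by ring

/-- the field `e^g v` -/
def ef (g : M → ℝ) (v : A.ι → M → Fin n → ℂ) : A.ι → M → Fin n → ℂ :=
  fun i x => ((Real.exp (g x) : ℝ) : ℂ) • v i x

theorem isF_ef {g : M → ℝ} (hg : A.Sm g) {v : A.ι → M → Fin n → ℂ} (hv : IsF N v) :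
    IsF N (ef g v) where
  sm i a := ContDiffOn.mul
    (Complex.ofRealCLM.contDiff.comp_contDiffOn (Real.contDiff_exp.comp_contDiffOn (hg i)))
    (hv.sm i a)
  tr i j x hx := by
    simp only [ef, hv.tr i j x hx, Matrix.mulVec_smul]
    exact smul_comm _ _ _

theorem cs_ef (g : M → ℝ) {v : A.ι → M → Fin n → ℂ} (hv : Cs v) : Cs (ef g v) := by
  obtain ⟨C, hC, h0⟩ := hv
  exact ⟨C, hC, fun i x hx => by rw [ef, h0 i x hx, smul_zero]⟩

theorem exp_half (t : ℝ) : ((Real.exp (t / 2) : ℝ) : ℂ) * (Real.exp (t / 2) : ℝ) =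
    (Real.exp t : ℝ) := by
  rw [← Complex.ofReal_mul, ← Real.exp_add, add_halves]

theorem exp_ne (t : ℝ) : ((Real.exp t : ℝ) : ℂ) ≠ 0 := Complex.ofReal_ne_zero.2 (Real.exp_pos t).ne'

section chg

variable {h1 h2 : HM ((KB A)⁻¹ * N)} {g : M → ℝ}
  (hw : ∀ i y, h1.w i y = h2.w i y * Real.exp (g y))
include hw

theorem dv_ef (v : A.ι → M → Fin n → ℂ) (i : A.ι) (x : M) :
    dv h2 (ef g v) i x = (Real.exp (g x) : ℝ) * dv h1 v i x := by
  have e : ∀ a, (fun y => (h2.w i y : ℂ) * ef g v i y a) = fun y => (h1.w i y : ℂ) * v i y a := by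
    intro a
    funext y
    rw [hw, ef, Pi.smul_apply, smul_eq_mul, Complex.ofReal_mul, mul_assoc]
  unfold dv
  simp only [e]
  rw [hw, Complex.ofReal_mul, mul_inv, ← mul_assoc, mul_left_comm, mul_inv_cancel₀ (exp_ne _),
    mul_one]

variable [Countable A.ι] (vol : HM (KB A)⁻¹) (K : Kah A)

theorem o1_chg (i : A.ι) (x : M) :
    o1 h1 vol i x = (Real.exp (g x / 2) : ℝ) * o1 h2 vol i x := by
  have e : T223.Hm.cw h1 vol x = Real.exp (g x / 2) * T223.Hm.cw h2 vol x := by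
    unfold T223.Hm.cw
    rw [hw, mul_comm (h2.w _ _), mul_div_assoc, Real.sqrt_mul (Real.exp_pos _).le, Real.exp_half]
  rw [o1, o1, e, Complex.ofReal_mul, mul_assoc]

theorem r1_chg (s : A.ι → M → ℂ) (x : M) :
    r1 h1 vol s x = (Real.exp (g x / 2) : ℝ) * r1 h2 vol s x := by
  rw [r1, r1, o1_chg hw, mul_assoc]

theorem r2_chg (v : A.ι → M → Fin n → ℂ) (x : M) :
    r2 h1 vol K v x = ((Real.exp (g x / 2) : ℝ) : ℂ) • r2 h2 vol K v x := by
  rw [r2, r2, t2, t2, o1_chg hw, mul_smul]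
  rfl

theorem r2_ef (v : A.ι → M → Fin n → ℂ) (x : M) :
    r2 h2 vol K (ef g v) x = ((Real.exp (g x / 2) : ℝ) : ℂ) • r2 h1 vol K v x := by
  rw [r2_chg hw, smul_smul, exp_half, r2, r2, ef, t2_smul]

theorem r1_dv_ef (v : A.ι → M → Fin n → ℂ) (x : M) :
    r1 h2 vol (dv h2 (ef g v)) x = (Real.exp (g x / 2) : ℝ) * r1 h1 vol (dv h1 v) x := by
  rw [r1_chg hw, ← mul_assoc, exp_half, r1, r1, dv_ef hw, mul_left_comm]

end chg

variable [Countable A.ι] [T2Space M] [MeasurableSpace M] [BorelSpace M]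
  (h : HM ((KB A)⁻¹ * N)) (vol : HM (KB A)⁻¹) (K : Kah A)

/-- divergence free test fields -/
def ZF : Submodule ℂ (TF N) where
  carrier := {v | ∀ i, ∀ x ∈ (A.e i).source, dv h v.1 i x = 0}
  add_mem' {v v'} hv hv' i x hx := by
    have := dv_add h v.2.1 v'.2.1 hx
    rw [hv i x hx, hv' i x hx, add_zero] at this
    exact this
  zero_mem' i x hx := by
    have := dv_smul h (isF_zero (N := N)) 0 hx
    rw [zero_smul, zero_mul] at this
    exact this
  smul_mem' c v hv i x hx := by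
    have := dv_smul h v.2.1 c hx
    rw [hv i x hx, mul_zero] at this
    exact this

/-- weakly closed forms -/
def NN : Submodule ℂ (Lp (E2 n) 2 (vm vol)) := ((ZF h).map (PL h vol K (p1 n)))ᗮ

instance : (NN h vol K).HasOrthogonalProjection := by
  have : CompleteSpace (NN h vol K) := (Submodule.isClosed_orthogonal _).completeSpace_coe
  infer_instance

theorem mem_NN {g : Lp (E2 n) 2 (vm vol)} : g ∈ NN h vol K ↔
    ∀ v, IsF N v → Cs v → (∀ i, ∀ x ∈ (A.e i).source, dv h v i x = 0) →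
      ∫ x, inner ℂ (r2 h vol K v x) (g x) ∂(vm vol) = 0 := by
  rw [NN, Submodule.mem_orthogonal]
  constructor
  · intro H v hv hv' hz
    rw [← inner_p1 h vol K ⟨v, hv, hv'⟩]
    exact H _ ⟨⟨v, hv, hv'⟩, hz, rfl⟩
  · rintro H _ ⟨v, hv, rfl⟩
    rw [inner_p1]
    exact H v.1 v.2.1 v.2.2 hv

theorem sh_mem (P : Part A) {s : A.ι → M → ℂ} (hs : IsS N s) (hc : Cs s) :
    (memLp_sh h vol K hs hc).toLp _ ∈ NN h vol K := by
  rw [NN, Submodule.mem_orthogonal]
  rintro _ ⟨v, hv, rfl⟩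
  rw [dual h vol K P hs hc, inner_p2]
  have : ∀ x, r1 h vol (dv h v.1) x = 0 := fun x => by rw [r1, hv _ x (ix_mem x), mul_zero]
  simp [this]

theorem dens_seq (P : Part A) (hcut : Cut K) {g : Lp (E2 n) 2 (vm vol)} {t : Lp ℂ 2 (vm vol)}
    (hg : g ∈ NN h vol K)
    (hgt : ∀ s (hs : IsS N s) (hc : Cs s), inner ℂ ((memLp_sh h vol K hs hc).toLp _) g =
      inner ℂ ((memLp_r1s h vol hs hc).toLp _) t) :
    ∃ f : ℕ → TF N, Tendsto (fun k => PL h vol K (p1 n) (f k)) atTop (𝓝 g) ∧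
      Tendsto (fun k => PL h vol K (p2 n) (f k)) atTop (𝓝 t) ∧
      Tendsto (fun k => PL h vol K (p3 n) (f k)) atTop (𝓝 0) := by
  have key := dens n M A P K hcut N h vol g t (Lp.memLp g) (Lp.memLp t) ((mem_NN h vol K).1 hg)
    fun s hs hs' => by
      have := hgt s hs hs'
      rw [L2.inner_def, L2.inner_def] at this
      refine Eq.trans (integral_congr_ae ?_) (this.trans (integral_congr_ae ?_))
      · filter_upwards [(memLp_sh h vol K hs hs').coeFn_toLp] with x hx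
        rw [hx]
      · filter_upwards [(memLp_r1s h vol hs hs').coeFn_toLp] with x hx
        rw [hx, RCLike.inner_apply']
  choose f f1 f2 f3 using fun k : ℕ => key ((k : ℝ≥0∞))⁻¹ (ENNReal.inv_pos.2 (by simp))
  have hm : MemLp (fun x => ((g x, t x, 0) : EW n)) 2 (vm vol) :=
    MemLp.of_fst_snd ⟨Lp.memLp g, MemLp.of_fst_snd ⟨Lp.memLp t, MemLp.zero⟩⟩
  have hlim : Tendsto (fun k => RL h vol K ⟨f k, f1 k, f2 k⟩) atTop (𝓝 (hm.toLp _)) :=
    (Lp.tendsto_Lp_iff_tendsto_eLpNorm'' _ (fun k => memLp_RR h vol K (f1 k) (f2 k)) _ hm).2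
      (tendsto_of_tendsto_of_tendsto_of_le_of_le tendsto_const_nhds
        ENNReal.tendsto_inv_nat_nhds_zero (fun _ => zero_le) f3)
  have e : ∀ {W : Type} [NormedAddCommGroup W] [NormedSpace ℂ W] (π : EW n →L[ℂ] W)
      (w : Lp W 2 (vm vol)), (∀ᵐ x ∂(vm vol), π (g x, t x, 0) = w x) →
      Tendsto (fun k => PL h vol K π ⟨f k, f1 k, f2 k⟩) atTop (𝓝 w) := by
    intro W _ _ π w hw
    have h1 : π.compLpL 2 (vm vol) (hm.toLp _) = w := by
      refine Lp.ext ?_
      filter_upwards [π.coeFn_compLpL (hm.toLp _), hm.coeFn_toLp, hw] with x e1 e2 e3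
      rw [e1, e2, e3]
    exact h1 ▸ ((π.compLpL 2 (vm vol)).continuous.tendsto _).comp hlim
  exact ⟨fun k => ⟨f k, f1 k, f2 k⟩, e _ g (Eventually.of_forall fun _ => rfl),
    e _ t (Eventually.of_forall fun _ => rfl),
    e _ 0 ((Lp.coeFn_zero (E3 n) 2 (vm vol)).mono fun _ hx => hx.symm)⟩

theorem apri (P : Part A) {l : M → ℝ} (hl : Measurable l) (hl0 : ∀ x, 0 ≤ l x) {Λ : ℝ}
    (hΛ : ∀ x, l x ≤ Λ)
    (hp : ∀ i, ∀ x ∈ (A.e i).source, ∀ v, 0 ≤ qf (cur h i x) v + l x * qf (K.g i x) v)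
    {G : A.ι → M → ℂ} (hG : IsS N G) (hc : Cs G)
    {κ : M → ℝ} (hi : Integrable κ (vm vol)) (h0 : ∀ x, 0 ≤ κ x)
    (hb : ∀ i, ∀ x ∈ (A.e i).source, ∀ v : Fin n → ℂ,
      h.w i x * ‖star v ⬝ᵥ dbs G i x‖ ^ 2 ≤
        κ x * vol.w i x * (qf (cur h i x) v + l x * qf (K.g i x) v)) (v : TF N) :
    ‖inner ℂ ((memLp_sh h vol K hG hc).toLp _) (PL h vol K (p1 n) v)‖ ^ 2 ≤
      (∫ x, κ x ∂(vm vol)) * (‖PL h vol K (p2 n) v‖ ^ 2 + ‖PL h vol K (p3 n) v‖ ^ 2 +
        ∫ x, l x * ‖PL h vol K (p1 n) v x‖ ^ 2 ∂(vm vol)) := by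
  obtain ⟨C, hC, hz⟩ := v.2.2
  have hΘ : Integrable (gl vol fun i y => h.w i y * hq (cur h i y) (v.1 i y)) (vm vol) := by
    have := (integral_gl_re (vol := vol) P (isD_form h (cur_smooth h)
      (fun _ _ _ hx => cur_tr h hx) v.2.1 v.2.1) hC (fun i x _ hx => by simp [hz i x hx])
      subset_rfl).1
    simpa only [Complex.re_ofReal_mul, hq] using this
  have hL : Integrable (fun x => l x * ‖PL h vol K (p1 n) v x‖ ^ 2) (vm vol) :=
    int_mul_sq hl.aestronglyMeasurable (fun x => by rw [abs_of_nonneg (hl0 x)]; exact hΛ x) _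
  have hae : (fun x => (gl vol fun i y => h.w i y * hq (cur h i y) (v.1 i y)) x +
      l x * ‖PL h vol K (p1 n) v x‖ ^ 2) =ᵐ[vm vol]
      gl vol fun i y => h.w i y * (qf (cur h i y) (v.1 i y) + l y * qf (K.g i y) (v.1 i y)) := by
    filter_upwards [PL_ae h vol K (p1 n) v] with x h1
    rw [h1]
    show _ + l x * ‖r2 h vol K v.1 x‖ ^ 2 = _
    rw [norm_r2]
    simp only [gl, hq_eq_qf, smul_eq_mul]
    ring
  have hΘ0 : ∀ x, 0 ≤ gl vol (fun i y => h.w i y *
      (qf (cur h i y) (v.1 i y) + l y * qf (K.g i y) (v.1 i y))) x := fun x =>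
    mul_nonneg (inv_pos.2 (vol.pos _ _ (ix_mem x))).le (mul_nonneg (h.pos _ _ (ix_mem x)).le
      (hp _ x (ix_mem x) _))
  rw [norm_inner_symm, L2.inner_def]
  refine (pow_le_pow_left₀ (norm_nonneg _) (norm_integral_le_integral_norm _) 2).trans
    ((cs_int (L2.integrable_inner _ _).norm hi ((hΘ.add hL).congr hae) h0 hΘ0 ?_).trans
      (mul_le_mul_of_nonneg_left ?_ (integral_nonneg h0)))
  · filter_upwards [PL_ae h vol K (p1 n) v, (memLp_sh h vol K hG hc).coeFn_toLp] with x h1 h2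
    have h3 := hb _ x (ix_mem x) (v.1 (ix A x) x)
    have h4 := vol.pos _ _ (ix_mem x)
    have h5 := h.pos _ _ (ix_mem x)
    rw [h1, h2]
    show ‖inner ℂ (r2 h vol K v.1 x) _‖ ^ 2 ≤ _
    rw [inner_sh, gl, gl, norm_smul, norm_mul, Complex.norm_real, Real.norm_of_nonneg h5.le,
      Real.norm_of_nonneg (inv_pos.2 h4).le, smul_eq_mul]
    have h6 := mul_le_mul_of_nonneg_left h3 (show 0 ≤ (vol.w (ix A x) x)⁻¹ ^ 2 * h.w (ix A x) x by
      positivity)
    refine le_trans (le_of_eq (by ring)) (h6.trans (le_of_eq ?_))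
    field_simp
  · rw [← integral_congr_ae hae, integral_add hΘ hL]
    refine add_le_add_left (((bkn1 n M A P K N h vol v.1 v.2.1 v.2.2).2).trans (le_of_eq ?_)) _
    rw [norm_sq_Lp, norm_sq_Lp]
    congr 1
    · refine integral_congr_ae ?_
      filter_upwards [PL_ae h vol K (p2 n) v] with x hx
      rw [hx, ← norm_r1, ← norm_neg]; rfl
    · refine integral_congr_ae ?_
      filter_upwards [PL_ae h vol K (p3 n) v] with x hx
      rw [hx, ← norm_r3]; rfl

/-- **the estimate for the projection of a test field** -/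
theorem est (P : Part A) (hcut : Cut K) {l : M → ℝ} (hl : Measurable l) (hl0 : ∀ x, 0 ≤ l x)
    {Λ : ℝ} (hΛ : ∀ x, l x ≤ Λ)
    (hp : ∀ i, ∀ x ∈ (A.e i).source, ∀ v, 0 ≤ qf (cur h i x) v + l x * qf (K.g i x) v)
    {G : A.ι → M → ℂ} (hG : IsS N G) (hc : Cs G)
    {κ : M → ℝ} (hκ : Measurable κ) (h0 : ∀ x, 0 ≤ κ x) {D : ℝ} (hD0 : 0 ≤ D)
    (hD : ∫⁻ x, ENNReal.ofReal (κ x) ∂(vm vol) ≤ ENNReal.ofReal D)
    (hb : ∀ i, ∀ x ∈ (A.e i).source, ∀ v : Fin n → ℂ,
      h.w i x * ‖star v ⬝ᵥ dbs G i x‖ ^ 2 ≤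
        κ x * vol.w i x * (qf (cur h i x) v + l x * qf (K.g i x) v)) (w : TF N) :
    ‖∫ x, conj (r1 h vol (dv h w.1) x) * r1 h vol G x ∂(vm vol)‖ ^ 2 ≤
      D * (∫ x, ‖r1 h vol (dv h w.1) x‖ ^ 2 ∂(vm vol) +
        ∫ x, l x * ‖(NN h vol K).starProjection (PL h vol K (p1 n) w) x‖ ^ 2 ∂(vm vol)) := by
  have hi : Integrable κ (vm vol) :=
    ⟨hκ.aestronglyMeasurable, (hasFiniteIntegral_iff_ofReal (Eventually.of_forall h0)).2
      (hD.trans_lt ENNReal.ofReal_lt_top)⟩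
  have hκD : ∫ x, κ x ∂(vm vol) ≤ D := by
    rw [← ofReal_integral_eq_lintegral_ofReal hi (Eventually.of_forall h0)] at hD
    exact (ENNReal.ofReal_le_ofReal_iff hD0).1 hD
  set y := (NN h vol K).starProjection (PL h vol K (p1 n) w) with hy
  have hproj : ∀ z ∈ NN h vol K, inner ℂ z y = inner ℂ z (PL h vol K (p1 n) w) := by
    intro z hz
    have h1 : inner ℂ z (PL h vol K (p1 n) w - y) = 0 :=
      (Submodule.sub_starProjection_mem_orthogonal (K := NN h vol K) _) z hz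
    rw [inner_sub_right, sub_eq_zero] at h1
    exact h1.symm
  obtain ⟨f, f1, f2, f3⟩ := dens_seq h vol K P hcut (g := y) (t := PL h vol K (p2 n) w)
    (Submodule.starProjection_apply_mem _ _) fun s hs hc' => by
      rw [hproj _ (sh_mem h vol K P hs hc'), ← inner_conj_symm, dual h vol K P hs hc',
        inner_conj_symm]
  have l1 := ((Filter.Tendsto.inner (𝕜 := ℂ) (tendsto_const_nhds
    (x := (memLp_sh h vol K hG hc).toLp _)) f1).norm).pow 2
  have l2 := (((f2.norm.pow 2).add (f3.norm.pow 2)).add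
    (tendsto_loss hl.aestronglyMeasurable hl0 hΛ f1)).const_mul (∫ x, κ x ∂(vm vol))
  have hle := le_of_tendsto_of_tendsto' l1 l2 fun k => apri h vol K P hl hl0 hΛ hp hG hc hi h0 hb _
  rw [hproj _ (sh_mem h vol K P hG hc), norm_inner_symm, dual h vol K P hG hc, inner_p2, norm_neg,
    norm_zero, sq (0 : ℝ), mul_zero, add_zero, norm_sq_Lp] at hle
  have e1 : ∫ x, conj (r1 h vol (dv h w.1) x) * ((memLp_r1s h vol hG hc).toLp _ : M → ℂ) x
      ∂(vm vol) = ∫ x, conj (r1 h vol (dv h w.1) x) * r1 h vol G x ∂(vm vol) := by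
    refine integral_congr_ae ?_
    filter_upwards [(memLp_r1s h vol hG hc).coeFn_toLp] with x hx
    rw [hx]
  have e2 : ∫ x, ‖PL h vol K (p2 n) w x‖ ^ 2 ∂(vm vol) =
      ∫ x, ‖r1 h vol (dv h w.1) x‖ ^ 2 ∂(vm vol) := by
    refine integral_congr_ae ?_
    filter_upwards [PL_ae h vol K (p2 n) w] with x hx
    rw [hx, ← norm_neg (r1 h vol (dv h w.1) x)]
    rfl
  rw [e1, e2] at hle
  refine hle.trans (mul_le_mul_of_nonneg_right hκD (add_nonneg
    (integral_nonneg fun x => sq_nonneg _)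
    (integral_nonneg fun x => mul_nonneg (hl0 x) (sq_nonneg _))))

end

end Crest.Agent.X261.Hc
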