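import Crest.Agent.R266.SCV

/-!
# Row 261, POIN (helper17), part A: power sums of a square-summable family of holomorphic functions

`flat`: if `a k v` (`k ≤ p`, `v ∈ G` countable) are holomorphic on a ball, bounded by a square
summable family, and the ratios `a k v0 / a 0 v0` have independent differentials at the centre,
then at some point of the ball `p + 1` of the power sums `∑_v (a k v)^(m+2)` are non zero and their
normalised logarithmic differentials are affinely independent.
-/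

set_option autoImplicit false
set_option linter.unusedSectionVars false
set_option linter.dupNamespace false

open Set Filter Topology Metric

namespace Crest.Agent.X261.Hc

open Crest.Agent.R266

noncomputable section

/-- infinite Vandermonde argument -/
theorem vdm {G : Type*} {a c : G → ℂ} (ha : Tendsto a cofinite (𝓝 0))
    (h : ∀ m : ℕ, HasSum (fun v => a v ^ m * c v) 0) {v0 : G} (h0 : a v0 ≠ 0)
    (hc : ∀ v, a v = a v0 → c v = c v0) : c v0 = 0 := by
  classical
  have step : ∀ T : Finset G, ∀ m : ℕ,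
      HasSum (fun v => a v ^ m * (c v * ∏ w ∈ T, (a v - a w))) 0 := by
    intro T
    induction T using Finset.induction_on with
    | empty => simpa using h
    | insert w T hw ih =>
      intro m
      have h1 := (ih (m + 1)).sub ((ih m).mul_left (a w))
      rw [mul_zero, sub_zero] at h1
      have h2 : (fun v => a v ^ m * (c v * ∏ w ∈ insert w T, (a v - a w))) = fun v =>
          a v ^ (m + 1) * (c v * ∏ w ∈ T, (a v - a w)) -
            a w * (a v ^ m * (c v * ∏ w ∈ T, (a v - a w))) := by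
        funext v
        rw [Finset.prod_insert hw]
        ring
      rw [h2]
      exact h1
  have hpos : 0 < ‖a v0‖ := norm_pos_iff.2 h0
  have hfin : {v | ‖a v0‖ ≤ ‖a v‖}.Finite := by
    have h1 : ∀ᶠ v in cofinite, ‖a v‖ < ‖a v0‖ := by
      have := ha.norm
      rw [norm_zero] at this
      exact this.eventually (gt_mem_nhds hpos)
    rw [eventually_cofinite] at h1
    simpa only [not_lt] using h1
  have hT : {v | ‖a v0‖ ≤ ‖a v‖ ∧ a v ≠ a v0}.Finite := hfin.subset fun v hv => hv.1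
  have hS : {v | a v = a v0}.Finite := hfin.subset fun v hv => by
    have : a v = a v0 := hv
    simp [this]
  set T := hT.toFinset with hTdef
  set c' : G → ℂ := fun v => c v * ∏ w ∈ T, (a v - a w) with hc'
  have hz : ∀ v, ‖a v0‖ ≤ ‖a v‖ → a v ≠ a v0 → c' v = 0 := by
    intro v h1 h2
    have : v ∈ T := hT.mem_toFinset.2 ⟨h1, h2⟩
    simp only [hc']
    rw [Finset.prod_eq_zero this (sub_self _), mul_zero]
  have hsum : Summable fun v => ‖c' v‖ := by
    have := (step T 0).summable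
    simp only [pow_zero, one_mul] at this
    exact this.norm
  have hlim := tendsto_tsum_of_dominated_convergence (𝓕 := atTop)
    (f := fun (m : ℕ) v => (a v / a v0) ^ m * c' v)
    (g := fun v => if a v = a v0 then c' v0 else 0) hsum (fun v => ?_) (Eventually.of_forall ?_)
  · have h1 : (fun m : ℕ => ∑' v, (a v / a v0) ^ m * c' v) = fun _ => 0 := by
      funext m
      have h2 := (step T m).mul_left ((a v0)⁻¹ ^ m)
      rw [mul_zero] at h2
      rw [← h2.tsum_eq]
      congr 1
      funext v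
      simp only [hc']
      rw [div_eq_mul_inv, mul_pow]
      ring
    rw [h1] at hlim
    have h2 := tendsto_nhds_unique hlim tendsto_const_nhds
    rw [tsum_eq_sum (f := fun v => if a v = a v0 then c' v0 else 0) (s := hS.toFinset)
      (fun v hv => if_neg fun h => hv (hS.mem_toFinset.2 h)),
      Finset.sum_congr rfl (f := fun v => if a v = a v0 then c' v0 else 0) (g := fun _ => c' v0)
        (fun v hv => if_pos (hS.mem_toFinset.1 hv)), Finset.sum_const, nsmul_eq_mul] at h2
    have h3 : (hS.toFinset.card : ℂ) ≠ 0 := by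
      rw [Nat.cast_ne_zero, Finset.card_ne_zero]
      exact ⟨v0, hS.mem_toFinset.2 rfl⟩
    have h4 : c' v0 = 0 := (mul_eq_zero.1 h2).resolve_left h3
    refine (mul_eq_zero.1 h4).resolve_right ?_
    refine Finset.prod_ne_zero_iff.2 fun w hw => ?_
    exact sub_ne_zero.2 (hT.mem_toFinset.1 hw).2.symm
  · by_cases h1 : a v = a v0
    · have h2 : c' v = c' v0 := by simp only [hc', h1, hc v h1]
      simp only [h1, div_self h0, one_pow, one_mul, h2, if_true]
      exact tendsto_const_nhds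
    · simp only [if_neg h1]
      by_cases h2 : ‖a v0‖ ≤ ‖a v‖
      · simp only [hz v h2 h1, mul_zero]
        exact tendsto_const_nhds
      · have h3 : ‖a v / a v0‖ < 1 := by
          rw [norm_div, div_lt_one hpos]
          exact not_le.1 h2
        simpa using (tendsto_pow_atTop_nhds_zero_of_norm_lt_one h3).mul_const (c' v)
  · intro m v
    by_cases h2 : ‖a v‖ ≤ ‖a v0‖
    · rw [norm_mul, norm_pow]
      have h3 : ‖a v / a v0‖ ≤ 1 := by
        rw [norm_div, div_le_one hpos]
        exact h2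
      exact mul_le_of_le_one_left (norm_nonneg _) (pow_le_one₀ (norm_nonneg _) h3)
    · have h3 : a v ≠ a v0 := fun h => h2 (by rw [h])
      rw [hz v (not_le.1 h2).le h3]
      simp

variable {E : Type} [NormedAddCommGroup E] [NormedSpace ℂ E]

/-- termwise differentiation of a normally convergent series of holomorphic functions -/
theorem tsum_hol {G : Type*} {f : G → E → ℂ} {y : E} {r : ℝ} (hr : 0 < r) {B : G → ℝ}
    (hB : Summable B) (hf : ∀ v, DifferentiableOn ℂ (f v) (ball y r))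
    (hb : ∀ v, ∀ w ∈ ball y r, ‖f v w‖ ≤ B v) :
    HasFDerivAt (fun w => ∑' v, f v w) (∑' v, fderiv ℂ (f v) y) y ∧
      Summable fun v => fderiv ℂ (f v) y := by
  have hsub : ∀ x ∈ ball y (r / 2), ball x (r / 2) ⊆ ball y r := by
    intro x hx
    refine ball_subset_ball' ?_
    rw [mem_ball] at hx
    linarith
  have hd : ∀ v, ∀ x ∈ ball y (r / 2), ‖fderiv ℂ (f v) x‖ ≤ B v / (r / 2) := fun v x hx =>
    SCV.norm_fderiv_le_of_ball (half_pos hr) ((hf v).mono (hsub x hx))
      fun w hw => hb v w (hsub x hx hw)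
  have hu : Summable fun v => B v / (r / 2) := hB.div_const _
  refine ⟨hasFDerivAt_tsum_of_isPreconnected (f' := fun v x => fderiv ℂ (f v) x) hu isOpen_ball
    (convex_ball y (r / 2)).isPreconnected (fun v x hx => ?_) hd (mem_ball_self (half_pos hr))
    (Summable.of_norm_bounded hB fun v => hb v y (mem_ball_self hr))
    (mem_ball_self (half_pos hr)),
    Summable.of_norm_bounded hu fun v => hd v y (mem_ball_self (half_pos hr))⟩
  exact ((hf v).differentiableAt (isOpen_ball.mem_nhds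
    (ball_subset_ball (half_le_self hr.le) hx))).hasFDerivAt

theorem pw_bd {G : Type*} {b : G → ℝ} (hb : Summable b) (hb0 : ∀ v, 0 ≤ b v) {v : G} {x : ℂ}
    (hx : ‖x‖ ^ 2 ≤ b v) (m : ℕ) : ‖x ^ (m + 2)‖ ≤ (1 + ∑' v, b v) ^ m * b v := by
  have h1 : b v ≤ ∑' v, b v := hb.le_tsum v fun w _ => hb0 w
  have h2 : ‖x‖ ≤ 1 + ∑' v, b v := by nlinarith [norm_nonneg x]
  rw [norm_pow, pow_add]
  exact mul_le_mul (pow_le_pow_left₀ (norm_nonneg _) h2 m) hx (by positivity)
    (pow_nonneg ((norm_nonneg _).trans h2) m)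

theorem fderiv_pw {f : E → ℂ} {y : E} (hf : DifferentiableAt ℂ f y) (m : ℕ) :
    fderiv ℂ (fun w => f w ^ (m + 1)) y = (((m + 1 : ℕ) : ℂ) * f y ^ m) • fderiv ℂ f y := by
  have h7 := (hf.hasFDerivAt.pow (m + 1)).fderiv
  rw [nsmul_eq_mul] at h7
  exact h7

/-- power sums -/
def pws {G : Type*} (a : G → E → ℂ) (m : ℕ) (w : E) : ℂ := ∑' v, a v w ^ (m + 2)

section one

variable {G : Type*} {a : G → E → ℂ} {U : Set E} {b : G → ℝ}

theorem pws_has (hU : IsOpen U) (hb : Summable b) (hol : ∀ v, DifferentiableOn ℂ (a v) U)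
    (bd : ∀ v, ∀ w ∈ U, ‖a v w‖ ^ 2 ≤ b v) (m : ℕ) {y : E} (hy : y ∈ U) :
    HasFDerivAt (pws a m) (∑' v, fderiv ℂ (fun w => a v w ^ (m + 2)) y) y ∧
      (Summable fun v => fderiv ℂ (fun w => a v w ^ (m + 2)) y) ∧
      Summable fun v => a v y ^ (m + 2) := by
  obtain ⟨r, hr, hball⟩ := Metric.isOpen_iff.1 hU y hy
  have hb0 : ∀ v, 0 ≤ b v := fun v => (sq_nonneg _).trans (bd v y hy)
  have h1 := tsum_hol (f := fun v w => a v w ^ (m + 2)) hr (hb.mul_left ((1 + ∑' v, b v) ^ m))
    (fun v => ((hol v).mono hball).pow _) fun v w hw => pw_bd hb hb0 (bd v w (hball hw)) m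
  exact ⟨h1.1, h1.2, Summable.of_norm_bounded (hb.mul_left ((1 + ∑' v, b v) ^ m))
    fun v => pw_bd hb hb0 (bd v y hy) m⟩

theorem pws_hol (hU : IsOpen U) (hb : Summable b) (hol : ∀ v, DifferentiableOn ℂ (a v) U)
    (bd : ∀ v, ∀ w ∈ U, ‖a v w‖ ^ 2 ≤ b v) (m : ℕ) : DifferentiableOn ℂ (pws a m) U :=
  fun _ hy => (pws_has hU hb hol bd m hy).1.differentiableAt.differentiableWithinAt

/-- the key step -/
theorem pws_key (hU : IsOpen U) (hb : Summable b) (hol : ∀ v, DifferentiableOn ℂ (a v) U)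
    (bd : ∀ v, ∀ w ∈ U, ‖a v w‖ ^ 2 ≤ b v) {y : E} (hy : y ∈ U) {v0 : G} (h0 : a v0 y ≠ 0)
    (hg : ∀ v, a v y = a v0 y → fderiv ℂ (a v) y = fderiv ℂ (a v0) y)
    (φ : (E →L[ℂ] ℂ) →L[ℂ] ℂ) (l : ℂ)
    (h : ∀ m : ℕ, φ (fderiv ℂ (pws a m) y) = ((m + 2 : ℕ) : ℂ) * l * pws a m y) :
    φ (fderiv ℂ (a v0) y) = l * a v0 y := by
  have ha : Tendsto (fun v => a v y) cofinite (𝓝 0) := by
    rw [tendsto_zero_iff_norm_tendsto_zero]
    have h1 := (Real.continuous_sqrt.tendsto 0).comp hb.tendsto_cofinite_zero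
    rw [Real.sqrt_zero] at h1
    refine squeeze_zero (fun _ => norm_nonneg _) (fun v => ?_) h1
    exact Real.le_sqrt_of_sq_le (bd v y hy)
  have h1 := vdm (c := fun v => a v y * (φ (fderiv ℂ (a v) y) - l * a v y)) ha (fun m => ?_) h0
    (fun v hv => by simp only [hv, hg v hv])
  · exact sub_eq_zero.1 ((mul_eq_zero.1 h1).resolve_left h0)
  · obtain ⟨h1, h2, h3⟩ := pws_has hU hb hol bd m hy
    have h4 := (h2.hasSum.mapL φ).mul_left (((m + 2 : ℕ) : ℂ))⁻¹
    rw [← h1.fderiv, h m] at h4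
    have h5 := h4.sub (h3.hasSum.mul_left l)
    have hm : ((m + 2 : ℕ) : ℂ) ≠ 0 := Nat.cast_ne_zero.2 (by omega)
    have h6 : (((m + 2 : ℕ) : ℂ))⁻¹ * (((m + 2 : ℕ) : ℂ) * l * pws a m y) -
        l * ∑' v, a v y ^ (m + 2) = 0 := by
      unfold pws
      field_simp
      ring
    rw [h6] at h5
    have h9 : (fun v => a v y ^ m * (a v y * (φ (fderiv ℂ (a v) y) - l * a v y))) = fun v =>
        (((m + 2 : ℕ) : ℂ))⁻¹ * φ (fderiv ℂ (fun w => a v w ^ (m + 2)) y) -
          l * a v y ^ (m + 2) := by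
      funext v
      rw [fderiv_pw ((hol v).differentiableAt (hU.mem_nhds hy)) (m + 1), map_smul, smul_eq_mul]
      field_simp
      ring
    rw [h9]
    exact h5

end one

/-- a point that is generic for countably many holomorphic functions -/
theorem generic [FiniteDimensional ℂ E] {ι : Type*} [Countable ι] {f : ι → E → ℂ} {U O : Set E}
    (hU : IsOpen U) (hc : IsPreconnected U) (hf : ∀ i, DifferentiableOn ℂ (f i) U)
    (hO : IsOpen O) (hne : O.Nonempty) (hOU : O ⊆ U) :
    ∃ y ∈ O, ∀ i, f i y = 0 → ∀ w ∈ U, f i w = 0 := by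
  classical
  have : CompleteSpace E := FiniteDimensional.complete ℂ E
  obtain ⟨y1, hy1⟩ := hne
  obtain ⟨ρ, hρ, hball⟩ := Metric.nhds_basis_closedBall.mem_iff.1 (hO.mem_nhds hy1)
  by_contra hcon
  push Not at hcon
  let Z : ι → Set E := fun i =>
    if ∃ w ∈ U, f i w ≠ 0 then closedBall y1 ρ ∩ f i ⁻¹' {0} else ∅
  have hZ : ∀ i, IsMeagre (Z i) := by
    intro i
    simp only [Z]
    split_ifs with hi
    · have hcl : IsClosed (closedBall y1 ρ ∩ f i ⁻¹' {0}) :=
        (((hf i).continuousOn).mono (hball.trans hOU)).preimage_isClosed_of_isClosed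
          isClosed_closedBall isClosed_singleton
      refine IsNowhereDense.isMeagre (hcl.isNowhereDense_iff.2 ?_)
      rw [eq_empty_iff_forall_notMem]
      intro x hx
      have h1 := mem_interior_iff_mem_nhds.1 hx
      have hxU : x ∈ U := hOU (hball (mem_of_mem_nhds h1).1)
      have h2 := SCV.dense_ne_zero hU hc (SCV.analyticOnNhd_of_differentiableOn hU (hf i)) hi x hxU
      obtain ⟨z, hz1, hz2⟩ := (h2.and_eventually h1).exists
      exact hz1.2 hz2.2
    · exact IsMeagre.empty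
  refine not_isMeagre_of_isOpen (isOpen_ball (x := y1) (ε := ρ)) ⟨y1, mem_ball_self hρ⟩
    ((isMeagre_iUnion hZ).mono fun y hy => ?_)
  obtain ⟨i, hi, hi'⟩ := hcon y (hball (ball_subset_closedBall hy))
  refine mem_iUnion.2 ⟨i, ?_⟩
  simp only [Z]
  rw [if_pos hi']
  exact ⟨ball_subset_closedBall hy, hi⟩

/-- linear algebra: `p` independent vectors in the span of a family can be found in the family -/
theorem pick {V : Type*} [AddCommGroup V] [Module ℂ V] [FiniteDimensional ℂ V] {J : Type*}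
    (u : J → V) (S : Set J) {p : ℕ} {w : Fin p → V} (hw : LinearIndependent ℂ w)
    (hm : ∀ k, w k ∈ Submodule.span ℂ (u '' S)) :
    ∃ j : Fin p → J, (∀ t, j t ∈ S) ∧ LinearIndependent ℂ fun t => u (j t) := by
  obtain ⟨f, hf, -, hli⟩ := Submodule.exists_fun_fin_finrank_span_eq ℂ (u '' S)
  have hle : p ≤ Module.finrank ℂ (Submodule.span ℂ (u '' S)) := by
    have h1 : LinearIndependent ℂ fun k => (⟨w k, hm k⟩ : Submodule.span ℂ (u '' S)) :=
      LinearIndependent.of_comp (Submodule.span ℂ (u '' S)).subtype hw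
    simpa using h1.fintype_card_le_finrank
  choose j hj hj' using hf
  refine ⟨fun t => j (Fin.castLE hle t), fun t => hj _, ?_⟩
  have h2 := hli.comp (Fin.castLE hle) (Fin.castLE_injective hle)
  have h3 : (fun t => u (j (Fin.castLE hle t))) = f ∘ Fin.castLE hle := funext fun t => hj' _
  rw [h3]
  exact h2

/-- normalised logarithmic differential of a power sum -/
def lam {G : Type*} (a : G → E → ℂ) (m : ℕ) (y : E) : E →L[ℂ] ℂ :=
  (((m + 2 : ℕ) : ℂ) * pws a m y)⁻¹ • fderiv ℂ (pws a m) y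

/-- **power sums separate** -/
theorem flat [FiniteDimensional ℂ E] {G : Type*} [Countable G] {p : ℕ}
    {a : Fin (p + 1) → G → E → ℂ} {U : Set E} (hU : IsOpen U) (hc : IsPreconnected U)
    {b : Fin (p + 1) → G → ℝ} (hb : ∀ k, Summable (b k))
    (hol : ∀ k v, DifferentiableOn ℂ (a k v) U) (bd : ∀ k v, ∀ w ∈ U, ‖a k v w‖ ^ 2 ≤ b k v)
    {y0 : E} (hy0 : y0 ∈ U) {v0 : G} (h0 : a 0 v0 y0 ≠ 0)
    (hl : LinearIndependent ℂ fun k : Fin p =>
      a 0 v0 y0 • fderiv ℂ (a k.succ v0) y0 - a k.succ v0 y0 • fderiv ℂ (a 0 v0) y0) :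
    ∃ y ∈ U, ∃ j : Fin (p + 1) → Fin (p + 1) × ℕ, (∀ t, pws (a (j t).1) (j t).2 y ≠ 0) ∧
      LinearIndependent ℂ fun t : Fin p =>
        lam (a (j t.succ).1) (j t.succ).2 y - lam (a (j 0).1) (j 0).2 y := by
  classical
  -- the open set where independence persists
  let Wr : E → Fin p → (E →L[ℂ] ℂ) := fun y k =>
    a 0 v0 y • fderiv ℂ (a k.succ v0) y - a k.succ v0 y • fderiv ℂ (a 0 v0) y
  have han : ∀ k, AnalyticAt ℂ (a k v0) y0 := fun k =>
    SCV.analyticOnNhd_of_differentiableOn hU (hol k v0) y0 hy0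
  have hW : ContinuousAt Wr y0 := by
    refine continuousAt_pi.2 fun k => ?_
    exact ((han 0).continuousAt.smul (han _).fderiv.continuousAt).sub
      ((han _).continuousAt.smul (han 0).fderiv.continuousAt)
  have hev : ∀ᶠ y in 𝓝 y0, LinearIndependent ℂ (Wr y) ∧ y ∈ U :=
    (hW.eventually (LinearIndependent.eventually hl)).and (hU.mem_nhds hy0)
  obtain ⟨O, hO1, hO, hOy⟩ := _root_.mem_nhds_iff.1 hev
  -- a generic point
  let f : (Fin (p + 1) × G) ⊕ Fin (p + 1) ⊕ (Fin (p + 1) × ℕ) → E → ℂ := fun i w =>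
    match i with
    | .inl i => a i.1 i.2 w - a i.1 v0 w
    | .inr (.inl k) => a k v0 w
    | .inr (.inr i) => pws (a i.1) i.2 w
  have hf : ∀ i, DifferentiableOn ℂ (f i) U := by
    rintro (i | k | i)
    · exact (hol _ _).sub (hol _ _)
    · exact hol _ _
    · exact pws_hol hU (hb _) (hol _) (bd _) _
  obtain ⟨y, hyO, hy⟩ := generic hU hc hf hO ⟨y0, hOy⟩ fun y hy => (hO1 hy).2
  have hyU : y ∈ U := (hO1 hyO).2
  have hli : LinearIndependent ℂ (Wr y) := (hO1 hyO).1
  have hz : ∀ {g : E → ℂ} {x : E}, x ∈ U → (∀ w ∈ U, g w = 0) → fderiv ℂ g x = 0 := by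
    intro g x hx hg
    have : g =ᶠ[𝓝 x] fun _ => 0 := by
      filter_upwards [hU.mem_nhds hx] with w hw using hg w hw
    rw [this.fderiv_eq]
    simp
  have hne : ∀ k, a k v0 y ≠ 0 := by
    intro k hk
    have h1 : ∀ w ∈ U, a k v0 w = 0 := hy (.inr (.inl k)) hk
    induction k using Fin.cases with
    | zero => exact h0 (h1 y0 hy0)
    | succ k =>
      refine hl.ne_zero k ?_
      ext ξ
      simp [h1 y0 hy0, hz hy0 h1]
  have hg : ∀ k v, a k v y = a k v0 y → fderiv ℂ (a k v) y = fderiv ℂ (a k v0) y := by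
    intro k v hv
    have h1 : ∀ w ∈ U, a k v w - a k v0 w = 0 := hy (.inl (k, v)) (sub_eq_zero.2 hv)
    refine Filter.EventuallyEq.fderiv_eq ?_
    filter_upwards [hU.mem_nhds hyU] with w hw using sub_eq_zero.1 (h1 w hw)
  have key : ∀ k (φ : (E →L[ℂ] ℂ) →L[ℂ] ℂ) (l : ℂ),
      (∀ m, pws (a k) m y ≠ 0 → φ (lam (a k) m y) = l) →
      φ (fderiv ℂ (a k v0) y) = l * a k v0 y := by
    intro k φ l h
    refine pws_key hU (hb k) (hol k) (bd k) hyU (hne k) (hg k) φ l fun m => ?_
    by_cases hm : pws (a k) m y = 0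
    · have h1 : ∀ w ∈ U, pws (a k) m w = 0 := hy (.inr (.inr (k, m))) hm
      rw [hz hyU h1, hm]
      simp
    · have h1 := h m hm
      have h2 : ((m + 2 : ℕ) : ℂ) ≠ 0 := Nat.cast_ne_zero.2 (by omega)
      unfold lam at h1
      rw [map_smul, smul_eq_mul] at h1
      rw [← h1]
      field_simp
  obtain ⟨m0, hm0⟩ : ∃ m, pws (a 0) m y ≠ 0 := by
    by_contra hcon
    push Not at hcon
    have h1 := key 0 0 1 fun m hm => absurd (hcon m) hm
    exact hne 0 (by simpa using h1.symm)
  let S : Set (Fin (p + 1) × ℕ) := {j | pws (a j.1) j.2 y ≠ 0}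
  let u : Fin (p + 1) × ℕ → (E →L[ℂ] ℂ) := fun j => lam (a j.1) j.2 y - lam (a 0) m0 y
  have hmem : ∀ k, fderiv ℂ (a k v0) y - a k v0 y • lam (a 0) m0 y ∈
      Submodule.span ℂ (u '' S) := by
    intro k
    by_contra hcon
    obtain ⟨φ, hφ, hφ0⟩ := Submodule.exists_dual_map_eq_bot_of_notMem hcon inferInstance
    have h1 := key k (LinearMap.toContinuousLinearMap φ) (φ (lam (a 0) m0 y)) fun m hm => by
      have h2 : φ (u (k, m)) ∈ (Submodule.span ℂ (u '' S)).map φ :=
        Submodule.mem_map_of_mem (Submodule.subset_span ⟨(k, m), hm, rfl⟩)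
      rw [hφ0, Submodule.mem_bot] at h2
      simp only [u, map_sub] at h2
      exact sub_eq_zero.1 h2
    apply hφ
    rw [map_sub, map_smul, smul_eq_mul]
    change φ _ = _ at h1
    rw [h1]
    ring
  obtain ⟨j, hj, hj'⟩ := pick u S hli fun k => by
    have h1 := Submodule.sub_mem _ (Submodule.smul_mem _ (a 0 v0 y) (hmem k.succ))
      (Submodule.smul_mem _ (a k.succ v0 y) (hmem 0))
    convert h1 using 1
    simp only [Wr]
    module
  refine ⟨y, hyU, Fin.cons (0, m0) j, fun t => ?_, ?_⟩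
  · induction t using Fin.cases with
    | zero => exact hm0
    | succ t => exact hj t
  · exact hj'

end

end Crest.Agent.X261.Hc
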