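import Crest.Agent.X261.Hc.PoinA
import Crest.Agent.X261.Plk.C

/-!
# Row 261, POIN (helper17), part B: Poincaré series on a Galois cover

`poin`: `p + 1` sections of the pull-back of `N` to the cover, with locally uniformly square
summable translates and independent ratios at one point, give `p + 1` sections of a power of `N`
on the base with independent ratios at one point.
-/

set_option autoImplicit false
set_option linter.unusedSectionVars false
set_option linter.dupNamespace false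

open Set Filter Topology Metric

namespace Crest.Agent.X261.Hc

open Crest.Agent.R275.Geo Crest.Agent.R275.Core144
open Crest.Agent.R275.OmT75 (dl dj dj_congr)
open Crest.Agent.R273.UCov_914
open Crest.Agent.R266

noncomputable section

variable {n : ℕ} {X : Type} [TopologicalSpace X] {A : Atl n X} {G : Type} [Group G]

/-- a section on the cover read in the chart `i` on the sheet `v` -/
def rd (D : MonD A G) (s : (D.atl G).ι → D.cov G → ℂ) (i : A.ι) (v : G) (z : Cn n) : ℂ :=
  s (i, v) (D.pt i v ((A.e i).symm z))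

/-- the translates are locally uniformly square summable -/
def SumB (D : MonD A G) (s : (D.atl G).ι → D.cov G → ℂ) : Prop :=
  ∀ i, ∀ z ∈ (A.e i).target, ∃ r > 0, ∃ b : G → ℝ, Summable b ∧
    ∀ v, ∀ w ∈ ball z r, ‖rd D s i v w‖ ^ 2 ≤ b v

open Classical in
/-- the Poincaré series of `s ^ (m + 2)` -/
def PS (D : MonD A G) (s : (D.atl G).ι → D.cov G → ℂ) (m : ℕ) : A.ι → X → ℂ := fun i x =>
  if x ∈ (A.e i).source then ∑' v, s (i, v) (D.pt i v x) ^ (m + 2) else 0

variable {D : MonD A G} {N : LB A} {s : (D.atl G).ι → D.cov G → ℂ}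

theorem rd_hol (hs : IsHS (D.pullLB G N) univ s) (i : A.ι) (v : G) :
    DifferentiableOn ℂ (rd D s i v) (A.e i).target := by
  have := hs.hol (i, v)
  unfold HolAt at this
  rwa [preimage_univ, inter_univ] at this

theorem PS_symm (m : ℕ) {i : A.ι} {z : Cn n} (hz : z ∈ (A.e i).target) :
    PS D s m i ((A.e i).symm z) = pws (rd D s i) m z := if_pos ((A.e i).map_target hz)

theorem pow_g' (L : LB A) (d : ℕ) (i j : A.ι) (x : X) : (L ^ d).g i j x = L.g i j x ^ d := by
  induction d with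
  | zero => simp
  | succ m ih => rw [pow_succ, LB.mul_g, ih, pow_succ]

theorem isHS_PS (hs : IsHS (D.pullLB G N) univ s) (hb : SumB D s) (m : ℕ) :
    IsHS (N ^ (m + 2)) univ (PS D s m) where
  hol i := by
    intro z hz
    obtain ⟨r, hr, b, hb, hbd⟩ := hb i z hz.1
    have hU : IsOpen (ball z r ∩ (A.e i).target) := isOpen_ball.inter (A.e i).open_target
    have h1 := (pws_has hU hb (fun v => (rd_hol hs i v).mono inter_subset_right)
      (fun v w hw => hbd v w hw.1) m ⟨mem_ball_self hr, hz.1⟩).1.differentiableAt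
    refine (h1.congr_of_eventuallyEq ?_).differentiableWithinAt
    filter_upwards [(A.e i).open_target.mem_nhds hz.1] with w hw using PS_symm m hw
  off i x hx := if_neg hx
  tr i j x hx _ := by
    unfold PS
    rw [if_pos hx.1, if_pos hx.2, pow_g', ← tsum_mul_left]
    have h1 : ∀ v : G, s (i, v) (D.pt i v x) =
        N.g i j x * s (j, D.c i j x • v) (D.pt j (D.c i j x • v) x) := by
      intro v
      have h2 : D.pt i v x ∈ ((D.atl G).e (i, v)).source := D.pt_mem_source (p := (i, v)) hx.1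
      have h3 : D.pt i v x ∈ ((D.atl G).e (j, D.c i j x • v)).source := by
        rw [D.pt_eq v hx.1 hx.2]
        exact D.pt_mem_source (p := (j, D.c i j x • v)) hx.2
      have h4 := hs.tr (i, v) (j, D.c i j x • v) (D.pt i v x) ⟨h2, h3⟩ (mem_univ _)
      rw [D.pullLB_g _ ⟨h2, h3⟩] at h4
      rw [h4, ← D.pt_eq v hx.1 hx.2]
      rfl
    simp only [h1, mul_pow]
    exact Equiv.tsum_eq (MulAction.toPerm (D.c i j x))
      fun v => N.g i j x ^ (m + 2) * s (j, v) (D.pt j v x) ^ (m + 2)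

theorem isHS_pw {L : LB A} {t : A.ι → X → ℂ} (ht : IsHS L univ t) (e : ℕ) :
    IsHS (L ^ (e + 1)) univ fun i x => t i x ^ (e + 1) where
  hol i := (ht.hol i).pow _
  off i x hx := by rw [ht.off i x hx, zero_pow (Nat.succ_ne_zero e)]
  tr i j x hx hxU := by rw [ht.tr i j x hx hxU, pow_g', mul_pow]

/-- the coordinates of a covector -/
def cov : (Cn n →L[ℂ] ℂ) →ₗ[ℂ] (Fin n → ℂ) where
  toFun L a := L (EuclideanSpace.single a 1)
  map_add' _ _ := rfl
  map_smul' _ _ := rfl

theorem cov_ker : LinearMap.ker (cov (n := n)) = ⊥ := by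
  rw [LinearMap.ker_eq_bot']
  intro L hL
  apply ContinuousLinearMap.coe_injective
  refine (EuclideanSpace.basisFun (Fin n) ℂ).toBasis.ext fun a => ?_
  have h1 : L (EuclideanSpace.single a 1) = 0 := congrFun hL a
  simpa using h1

theorem dj_eq {f : Cn n → ℂ} {z : Cn n} (hf : DifferentiableAt ℂ f z) (a : Fin n) :
    dj a f z = cov (fderiv ℂ f z) a := by
  have h2 : fderiv ℝ f z = (fderiv ℂ f z).restrictScalars ℝ := hf.fderiv_restrictScalars ℝ
  have h3 : (EuclideanSpace.single a Complex.I : Cn n) =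
      Complex.I • EuclideanSpace.single a (1 : ℂ) := by
    ext b
    by_cases hb : b = a <;> simp [hb]
  unfold dj
  rw [h2, h3]
  change _ = fderiv ℂ f z (EuclideanSpace.single a 1)
  simp only [ContinuousLinearMap.coe_restrictScalars', map_smul, smul_eq_mul]
  linear_combination (-(1 / 2 : ℂ) * (fderiv ℂ f z) (EuclideanSpace.single a 1)) * Complex.I_mul_I

/-- **Poincaré series** -/
theorem poin [Countable G] {p : ℕ} (s : Fin (p + 1) → (D.atl G).ι → D.cov G → ℂ)
    (hs : ∀ k, IsHS (D.pullLB G N) univ (s k)) (hb : ∀ k, SumB D (s k))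
    {q : (D.atl G).ι} {y : D.cov G} (hy : y ∈ ((D.atl G).e q).source) (h0 : s 0 q y ≠ 0)
    (hl : LinearIndependent ℂ fun (k : Fin p) (a : Fin n) =>
      s 0 q y * dl (D.atl G) q a (s k.succ q) y - s k.succ q y * dl (D.atl G) q a (s 0 q) y) :
    ∃ (m : ℕ) (σ : Fin (p + 1) → A.ι → X → ℂ), 0 < m ∧ (∀ k, IsHS (N ^ m) univ (σ k)) ∧
      ∃ i, ∃ x ∈ (A.e i).source, σ 0 i x ≠ 0 ∧ LinearIndependent ℂ fun (k : Fin p) (a : Fin n) =>
        σ 0 i x * dl A i a (σ k.succ i) x - σ k.succ i x * dl A i a (σ 0 i) x := by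
  classical
  obtain ⟨i, v0⟩ := q
  set y0 : Cn n := A.e i (D.pr y) with hy0
  have hy0t : y0 ∈ (A.e i).target := (A.e i).map_source hy.1
  have hval : ∀ k, s k (i, v0) y = rd D (s k) i v0 y0 := by
    intro k
    unfold rd
    rw [hy0, (A.e i).left_inv hy.1, D.pt_of_mem hy]
  have hder : ∀ k a, dl (D.atl G) (i, v0) a (s k (i, v0)) y =
      cov (fderiv ℂ (rd D (s k) i v0) y0) a := fun k a =>
    dj_eq ((rd_hol (hs k) i v0).differentiableAt ((A.e i).open_target.mem_nhds hy0t)) a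
  choose r hr b hbs hbd using fun k => hb k i y0 hy0t
  obtain ⟨ρ, hρ, hball⟩ : ∃ ρ > 0, ball y0 ρ ⊆ (A.e i).target ∩ ⋂ k, ball y0 (r k) :=
    Metric.mem_nhds_iff.1 (inter_mem ((A.e i).open_target.mem_nhds hy0t)
      (iInter_mem.2 fun k => ball_mem_nhds _ (hr k)))
  have hl' : LinearIndependent ℂ fun k : Fin p =>
      rd D (s 0) i v0 y0 • fderiv ℂ (rd D (s k.succ) i v0) y0 -
        rd D (s k.succ) i v0 y0 • fderiv ℂ (rd D (s 0) i v0) y0 := by
    refine LinearIndependent.of_comp cov ?_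
    convert hl using 1
    funext k a
    simp only [Function.comp_apply, map_sub, map_smul, Pi.sub_apply, Pi.smul_apply, smul_eq_mul,
      hval, hder]
  have hol : ∀ k v, DifferentiableOn ℂ (rd D (s k) i v) (ball y0 ρ) := fun k v =>
    (rd_hol (hs k) i v).mono fun w hw => (hball hw).1
  have bd : ∀ k v, ∀ w ∈ ball y0 ρ, ‖rd D (s k) i v w‖ ^ 2 ≤ b k v := fun k v w hw =>
    hbd k v w (mem_iInter.1 (hball hw).2 k)
  obtain ⟨z, hz, j, hj, hli⟩ := flat (a := fun k => rd D (s k) i) isOpen_ball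
    (convex_ball y0 ρ).isPreconnected hbs hol bd (mem_ball_self hρ) (by rw [← hval]; exact h0) hl'
  have hzt : z ∈ (A.e i).target := (hball hz).1
  set m : ℕ := ∏ t, ((j t).2 + 2) with hm
  have hmpos : 0 < m := Finset.prod_pos fun t _ => by omega
  have hdiv : ∀ t, ∃ e : ℕ, m = ((j t).2 + 2) * (e + 1) := by
    intro t
    obtain ⟨e, he⟩ : ((j t).2 + 2) ∣ m := Finset.dvd_prod_of_mem _ (Finset.mem_univ t)
    refine ⟨e - 1, ?_⟩
    have : e ≠ 0 := by
      rintro rfl
      omega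
    rw [he, Nat.sub_add_cancel (Nat.one_le_iff_ne_zero.2 this)]
  choose e he using hdiv
  let σ : Fin (p + 1) → A.ι → X → ℂ := fun t i x => PS D (s (j t).1) (j t).2 i x ^ (e t + 1)
  have hσv : ∀ t, σ t i ((A.e i).symm z) = pws (rd D (s (j t).1) i) (j t).2 z ^ (e t + 1) := by
    intro t
    simp only [σ]
    rw [PS_symm _ hzt]
  have hσne : ∀ t, σ t i ((A.e i).symm z) ≠ 0 := fun t => by
    rw [hσv]
    exact pow_ne_zero _ (hj t)
  have hσd : ∀ t a, dl A i a (σ t i) ((A.e i).symm z) =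
      m * σ t i ((A.e i).symm z) * cov (lam (rd D (s (j t).1) i) (j t).2 z) a := by
    intro t a
    have hd : DifferentiableAt ℂ (pws (rd D (s (j t).1) i) (j t).2) z :=
      (pws_has isOpen_ball (hbs _) (hol _) (bd _) _ hz).1.differentiableAt
    have hev : (fun w => σ t i ((A.e i).symm w)) =ᶠ[𝓝 z]
        fun w => pws (rd D (s (j t).1) i) (j t).2 w ^ (e t + 1) := by
      filter_upwards [(A.e i).open_target.mem_nhds hzt] with w hw
      simp only [σ]
      rw [PS_symm _ hw]
    unfold dl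
    rw [(A.e i).right_inv hzt, dj_congr hev, dj_eq (hd.fun_pow _), fderiv_pw hd, hσv]
    unfold lam
    have h1 := hj t
    have h2 : (((j t).2 + 2 : ℕ) : ℂ) ≠ 0 := Nat.cast_ne_zero.2 (by omega)
    have h3 : (m : ℂ) = (((j t).2 + 2 : ℕ) : ℂ) * ((e t + 1 : ℕ) : ℂ) := by
      rw [← Nat.cast_mul, ← he t]
    simp only [map_smul, Pi.smul_apply, smul_eq_mul]
    rw [h3]
    field_simp
    ring
  refine ⟨m, σ, hmpos, fun t => ?_, i, (A.e i).symm z, (A.e i).map_target hzt, hσne 0, ?_⟩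
  · have h1 := isHS_pw (isHS_PS (hs (j t).1) (hb (j t).1) (j t).2) (e t)
    rwa [← pow_mul, ← he t] at h1
  · have hmc : (m : ℂ) ≠ 0 := Nat.cast_ne_zero.2 hmpos.ne'
    have h1 := (hli.map' cov cov_ker).units_smul fun t : Fin p =>
      Units.mk0 (m * σ 0 i ((A.e i).symm z) * σ t.succ i ((A.e i).symm z))
        (mul_ne_zero (mul_ne_zero hmc (hσne 0)) (hσne _))
    refine (congrArg (fun v : Fin p → Fin n → ℂ => LinearIndependent ℂ v) ?_).mpr h1
    funext t a
    simp only [hσd, Pi.smul_apply', Function.comp_apply, map_sub, Units.smul_mk0, Pi.smul_apply,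
      Pi.sub_apply, smul_eq_mul]
    ring

/-- the form used in `Top.JetStmt` -/
theorem poin_wdg [Countable G] {p : ℕ} {L : LB A} {k : ℕ} (hk : 0 < k)
    (s : Fin (p + 1) → (D.atl G).ι → D.cov G → ℂ)
    (hs : ∀ t, IsHS (D.pullLB G (L ^ k)) univ (s t)) (hb : ∀ t, SumB D (s t))
    {q : (D.atl G).ι} {y : D.cov G} (hy : y ∈ ((D.atl G).e q).source) (h0 : s 0 q y ≠ 0)
    (hl : LinearIndependent ℂ fun (t : Fin p) (a : Fin n) =>
      s 0 q y * dl (D.atl G) q a (s t.succ q) y - s t.succ q y * dl (D.atl G) q a (s 0 q) y) :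
    ∃ (m : ℕ) (σ : Fin (p + 1) → A.ι → X → ℂ), 0 < m ∧ (∀ t, IsHS (L ^ m) univ (σ t)) ∧
      ∃ i, ∃ x ∈ (A.e i).source, (Top.wdg fun (t : Fin p) (a : Fin n) =>
        σ 0 i x * dl A i a (σ t.succ i) x - σ t.succ i x * dl A i a (σ 0 i) x) ≠ 0 := by
  obtain ⟨m, σ, hm, hσ, i, x, hx, -, h⟩ := poin s hs hb hy h0 hl
  refine ⟨k * m, σ, Nat.mul_pos hk hm, fun t => ?_, i, x, hx, Plk.twdg_ne_zero_iff.2 h⟩
  rw [pow_mul]
  exact hσ t

end

end Crest.Agent.X261.Hc
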