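import Crest.Agent.X261.Hc.PoinB
import Crest.Agent.X261.Jet.Fr
import Crest.Agent.R271.Montel_297
import Crest.Agent.R273.Berezin_505

/-!
# Row 261, POIN (helper17), part C: `L²` sections on the cover have summable translates

* `div_bd`       : sup bound for `f` from an `L²` bound of `f ε`, `ε` holomorphic and not flat;
* `sumB_of_lint` : `SumB` from a finite integral on the cover;
* `sumB_of_rr`, `sumB_fol` : the same for `L²` polyvector fields `V = s ε`.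
-/

set_option autoImplicit false
set_option linter.unusedSectionVars false
set_option linter.dupNamespace false

open Set Filter Topology Metric MeasureTheory
open scoped ENNReal Matrix

namespace Crest.Agent.X261.Hc

open Crest.Agent.R275.Geo Crest.Agent.R275.Core144
open Crest.Agent.R273.UCov_914 Crest.Agent.R273.Defs_333 Crest.Agent.R273.Kah_333
open Crest.Agent.R273.Vm_333
open Crest.Agent.R273.Fock_243 (FI)
open Crest.Agent.R273.BKNa_37 (IsV)
open Crest.Agent.R273.Berezin_505 (Sb Sbi)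
open Crest.Agent.R273.RMan4_798 (pullKah)
open Crest.Agent.T223.Hm
open Crest.Agent.X261.Jet.Fr
open Crest.Agent.R271.Montel297

noncomputable section

variable {n : ℕ}

/-- division estimate -/
theorem div_bd {T : Set (Fin n → ℂ)} (hT : IsOpen T) {ε : (Fin n → ℂ) → ℂ}
    (hε : DifferentiableOn ℂ ε T) {z0 : Fin n → ℂ} (hz : z0 ∈ T) (hne : ∃ᶠ w in 𝓝 z0, ε w ≠ 0) :
    ∃ r > 0, ∃ C : Set (Fin n → ℂ), IsCompact C ∧ C ⊆ T ∧ ∃ c : ℝ, ∀ f : (Fin n → ℂ) → ℂ,
      DifferentiableOn ℂ f T → ∀ I : ℝ≥0∞, I ≠ ⊤ → ∫⁻ y in C, ‖f y * ε y‖ₑ ^ 2 ≤ I →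
        ∀ w ∈ ball z0 r, ‖f w‖ ^ 2 ≤ c * I.toReal := by
  obtain ⟨R4, hR4, hC⟩ := Metric.nhds_basis_closedBall.mem_iff.1 (hT.mem_nhds hz)
  set R := R4 / 4 with hR
  have hR0 : 0 < R := by positivity
  obtain ⟨w1, hw1, hw1'⟩ := (hne.and_eventually (ball_mem_nhds z0 hR0)).exists
  set u := w1 - z0 with hu
  have hun : ‖u‖ < R := by rwa [dist_eq_norm] at hw1'
  have hin : ∀ w ∈ ball z0 R, ∀ t : ℂ, ‖t‖ ≤ 2 → w + t • u ∈ ball z0 (3 * R) := by
    intro w hw t ht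
    rw [mem_ball, dist_eq_norm] at hw ⊢
    have h1 : w + t • u - z0 = (w - z0) + t • u := by abel
    have h2 : ‖t • u‖ ≤ 2 * R := by
      rw [norm_smul]
      exact mul_le_mul ht hun.le (norm_nonneg _) (by norm_num)
    rw [h1]
    linarith [norm_add_le (w - z0) (t • u)]
  have h3T : ball z0 (3 * R) ⊆ T := fun w hw =>
    hC (ball_subset_closedBall (ball_subset_ball (by rw [hR]; linarith) hw))
  have hline : ∀ {f : (Fin n → ℂ) → ℂ}, DifferentiableOn ℂ f T → ∀ w ∈ ball z0 R,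
      DifferentiableOn ℂ (fun t : ℂ => f (w + t • u)) (closedBall 0 2) := fun hf w hw =>
    hf.comp (f := fun t : ℂ => w + t • u) (by fun_prop) fun t ht =>
      h3T (hin w hw t (mem_closedBall_zero_iff.1 ht))
  have hg : AnalyticOnNhd ℂ (fun t : ℂ => ε (z0 + t • u)) (ball 0 2) :=
    ((hline hε z0 (mem_ball_self hR0)).mono ball_subset_closedBall).analyticOnNhd isOpen_ball
  have h02 : (0 : ℂ) ∈ ball (0 : ℂ) 2 := mem_ball_self two_pos
  have hiso : ∀ᶠ t in 𝓝[≠] (0 : ℂ), ε (z0 + t • u) ≠ 0 := by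
    refine (hg 0 h02).eventually_eq_zero_or_eventually_ne_zero.resolve_left fun h => hw1 ?_
    have h1 := hg.eqOn_zero_of_preconnected_of_eventuallyEq_zero (convex_ball _ _).isPreconnected
      h02 h (show (1 : ℂ) ∈ ball (0 : ℂ) 2 by simp)
    simpa [hu] using h1
  obtain ⟨η, hη, hη'⟩ := Metric.eventually_nhds_iff.1 (eventually_nhdsWithin_iff.1 hiso)
  set δ := min (η / 2) 1 with hδ
  have hδ0 : 0 < δ := lt_min (half_pos hη) one_pos
  have hδ2 : δ ≤ 2 := (min_le_right _ _).trans one_le_two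
  have hsph : ∀ t ∈ sphere (0 : ℂ) δ, ‖t‖ = δ := fun t ht => mem_sphere_zero_iff_norm.1 ht
  obtain ⟨m, hm0, hm⟩ := (isCompact_sphere (0 : ℂ) δ).exists_forall_le'
    (f := fun t => ‖ε (z0 + t • u)‖) (a := 0)
    ((hline hε z0 (mem_ball_self hR0)).continuousOn.norm.mono fun t ht =>
      mem_closedBall_zero_iff.2 ((hsph t ht).trans_le hδ2))
    fun t ht => norm_pos_iff.2 (hη' (by
      rw [dist_zero_right, hsph t ht]
      exact (min_le_left _ _).trans_lt (half_lt_self hη)) fun h => by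
        have h1 := hsph t ht
        rw [mem_singleton_iff.1 h, norm_zero] at h1
        exact hδ0.ne h1)
  have hev : ∀ᶠ w in 𝓝 z0, ∀ t ∈ sphere (0 : ℂ) δ, m / 2 < ‖ε (w + t • u)‖ := by
    refine (isCompact_sphere (0 : ℂ) δ).eventually_forall_of_forall_eventually
      (P := fun w t => m / 2 < ‖ε (w + t • u)‖) fun t ht => ?_
    have h1 : ContinuousAt ε (z0 + t • u) := hε.continuousOn.continuousAt
      (hT.mem_nhds (h3T (hin z0 (mem_ball_self hR0) t ((hsph t ht).trans_le hδ2))))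
    have h2 : ContinuousAt (fun q : (Fin n → ℂ) × ℂ => ‖ε (q.1 + q.2 • u)‖) (z0, t) :=
      (ContinuousAt.comp (f := fun q : (Fin n → ℂ) × ℂ => q.1 + q.2 • u) h1 (by fun_prop)).norm
    exact h2.eventually (lt_mem_nhds ((half_lt_self hm0).trans_le (hm t ht)))
  obtain ⟨r, hr, hr'⟩ := Metric.eventually_nhds_iff.1 (hev.and (ball_mem_nhds z0 hR0))
  refine ⟨r, hr, closedBall z0 R4, isCompact_closedBall _ _, hC,
    ((volume (closedBall (0 : Fin n → ℂ) (R / 2))).toReal)⁻¹ / (m / 2) ^ 2,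
    fun f hf I hI hfI w hw => ?_⟩
  obtain ⟨hw1, hw2⟩ := hr' (mem_ball.1 hw)
  have hb : ‖(fun t : ℂ => f (w + t • u)) 0‖ ≤ bd n (R / 2) I / (m / 2) := by
    refine Complex.norm_le_of_forall_mem_frontier_norm_le (U := ball (0 : ℂ) δ) isBounded_ball
      (DifferentiableOn.diffContOnCl ((hline hf w hw2).mono
        (closure_ball_subset_closedBall.trans (closedBall_subset_closedBall hδ2))))
      (fun t ht => ?_) (subset_closure (mem_ball_self hδ0))
    rw [frontier_ball _ hδ0.ne'] at ht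
    have h1 := hin w hw2 t ((hsph t ht).trans_le hδ2)
    have h2 : ‖f (w + t • u) * ε (w + t • u)‖ ≤ bd n (R / 2) I := by
      refine norm_le_bd (f := fun y => f y * ε y) (D := ball z0 R4) (half_pos hR0) isOpen_ball
        ((hf.mul hε).mono (ball_subset_closedBall.trans hC)) (closedBall_subset_ball' ?_) hI
        ((lintegral_mono_set ball_subset_closedBall).trans hfI)
      rw [mem_ball] at h1
      rw [hR] at h1 ⊢
      linarith
    rw [le_div_iff₀ (half_pos hm0)]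
    refine le_trans ?_ h2
    rw [norm_mul]
    exact mul_le_mul_of_nonneg_left (hw1 t ht).le (norm_nonneg _)
  simp only [zero_smul, add_zero] at hb
  refine (pow_le_pow_left₀ (norm_nonneg _) hb 2).trans (le_of_eq ?_)
  rw [div_pow, bd, Real.sq_sqrt ENNReal.toReal_nonneg, ENNReal.toReal_div]
  ring

theorem lint_chart {M : Type} [TopologicalSpace M] {B : Atl n M} [Countable B.ι]
    [MeasurableSpace M] [BorelSpace M] (vol : HM (KB B)⁻¹) (i : B.ι) {F : M → ℝ≥0∞}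
    (hF : AEMeasurable F (vm vol)) :
    ∫⁻ x in (B.e i).source, F x ∂(vm vol) = ∫⁻ z in Tz B i, rz vol i z * F (sz B i z) := by
  have h1 : AEMeasurable F ((nz vol i).map (sz B i)) := by
    rw [map_sz]
    exact hF.restrict
  rw [← map_sz, lintegral_map' h1 (aem_sz' vol i)]
  exact lintegral_nz vol i ((h1.comp_aemeasurable (aem_sz' vol i)).mono_ac (ac_nz vol i))

variable {X : Type} [TopologicalSpace X] {A : Atl n X} {G : Type} [Group G] {D : MonD A G}
  [Countable A.ι] [Countable G] [MeasurableSpace (D.cov G)] [BorelSpace (D.cov G)]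
  {N : LB A} {s : (D.atl G).ι → D.cov G → ℂ}

theorem hol_flat {M : Type} [TopologicalSpace M] {B : Atl n M} {i : B.ι} {f : M → ℂ}
    (hf : HolAt B i univ f) : DifferentiableOn ℂ (fun z => f (sz B i z)) (Tz B i) :=
  DifferentiableOn.comp (g := fun z => f ((B.e i).symm z))
    (f := fun z : Fin n → ℂ => (WithLp.toLp 2 z : Cn n)) hf
    (PiLp.continuousLinearEquiv 2 ℂ (fun _ : Fin n => ℂ)).symm.differentiable.differentiableOn
    fun _ hz => ⟨hz, mem_univ _⟩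

/-- **`SumB` from a finite integral** -/
theorem sumB_of_lint (vol : HM (KB (D.atl G))⁻¹) (hs : IsHS (D.pullLB G N) univ s)
    {F : D.cov G → ℝ≥0∞} (hF : AEMeasurable F (vm vol)) (hfin : ∫⁻ y, F y ∂(vm vol) ≠ ⊤)
    (H : ∀ i, ∀ x ∈ (A.e i).source, ∃ ε : X → ℂ, HolAt A i univ ε ∧ (∃ᶠ x' in 𝓝 x, ε x' ≠ 0) ∧
      ∀ C : Set X, IsCompact C → C ⊆ (A.e i).source → ∃ c : ℝ, ∀ x' ∈ C, ∀ v : G,
        ENNReal.ofReal (‖s (i, v) (D.pt i v x') * ε x'‖ ^ 2) ≤ ENNReal.ofReal c *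
          (ENNReal.ofReal (vol.w (i, v) (D.pt i v x')) * F (D.pt i v x'))) :
    SumB D s := by
  intro i z hz
  have hx : (A.e i).symm z ∈ (A.e i).source := (A.e i).map_target hz
  obtain ⟨ε, hε, hne, hC⟩ := H i _ hx
  have hz0 : cz A i ((A.e i).symm z) = WithLp.ofLp z := by
    unfold cz
    rw [(A.e i).right_inv hz]
  have hne' : ∃ᶠ w in 𝓝 (WithLp.ofLp z), ε (sz A i w) ≠ 0 := by
    rw [← hz0]
    refine Tendsto.frequently ((contOn_cz i).continuousAt ((A.e i).open_source.mem_nhds hx)) ?_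
    refine (hne.and_eventually ((A.e i).open_source.mem_nhds hx)).mono fun x' hx' => ?_
    rw [sz_cz hx'.2]
    exact hx'.1
  obtain ⟨r, hr, C, hCc, hCT, c, hc⟩ := div_bd (isOpen_Tz i) (hol_flat hε) (z0 := WithLp.ofLp z)
    hz hne'
  obtain ⟨c', hc'⟩ := hC (sz A i '' C) (hCc.image_of_continuousOn ((contOn_sz i).mono hCT))
    (by rintro _ ⟨y, hy, rfl⟩; exact sz_mem (hCT hy))
  obtain ⟨r', hr', hb⟩ := Metric.mem_nhds_iff.1
    ((PiLp.continuous_ofLp 2 (fun _ : Fin n => ℂ)).continuousAt.preimage_mem_nhds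
      (ball_mem_nhds (WithLp.ofLp z) hr))
  let I : G → ℝ≥0∞ := fun v => ENNReal.ofReal c' * ∫⁻ y in D.sheet i v, F y ∂(vm vol)
  have hI : ∑' v, I v ≠ ⊤ := by
    rw [ENNReal.tsum_mul_left, ← lintegral_iUnion (fun v => (D.isOpen_sheet i v).measurableSet)
      (fun v v' hv => Set.disjoint_left.2 fun y h1 h2 => hv (h1.2.symm.trans h2.2))]
    exact ENNReal.mul_ne_top ENNReal.ofReal_ne_top
      (ne_top_of_le_ne_top hfin (setLIntegral_le_lintegral _ _))
  refine ⟨r', hr', fun v => c * (I v).toReal, (ENNReal.summable_toReal hI).mul_left c,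
    fun v w hw => ?_⟩
  refine hc (fun y => s (i, v) (sz (D.atl G) (i, v) y)) (hol_flat (hs.hol (i, v))) (I v)
    (ne_top_of_le_ne_top hI (ENNReal.le_tsum v)) ?_ (WithLp.ofLp w) (hb hw)
  have h1 : ∫⁻ y in D.sheet i v, F y ∂(vm vol) = _ := lint_chart vol (i, v) hF
  simp only [I]
  rw [h1, ← lintegral_const_mul' _ _ ENNReal.ofReal_ne_top]
  refine le_trans (setLIntegral_mono' hCc.measurableSet fun y hy => ?_) (lintegral_mono_set hCT)
  have h2 := hc' _ ⟨y, hy, rfl⟩ v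
  rw [ENNReal.ofReal_pow (norm_nonneg _), ofReal_norm] at h2
  exact h2

/-- `SumB` for a section dominated by an `L²` polyvector field -/
theorem sumB_of_le (K0 : Kah A) {N' : LB (D.atl G)} (h : HM ((KB (D.atl G))⁻¹ * N'))
    (vol : HM (KB (D.atl G))⁻¹) {V : (D.atl G).ι → D.cov G → FI n → ℂ} (hV : IsV N' V)
    (hm : MemLp (rr h vol (pullKah D G K0) V) 2 (vm vol)) (w0 : A.ι → X → ℝ)
    (hw0 : ∀ i, ContinuousOn (w0 i) (A.e i).source) (hw1 : ∀ i, ∀ x ∈ (A.e i).source, 0 < w0 i x)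
    (hw : ∀ q, ∀ y ∈ ((D.atl G).e q).source, w0 q.1 (D.pr y) ≤ h.w q y)
    (ε : A.ι → X → FI n → ℂ) (hε : ∀ i S, HolAt A i univ fun x => ε i x S)
    (hne : ∀ i, ∀ x ∈ (A.e i).source, ∃ᶠ x' in 𝓝 x, ε i x' ≠ 0)
    (hs : IsHS (D.pullLB G N) univ s)
    (hVs : ∀ q, ∀ y ∈ ((D.atl G).e q).source, ∀ S, ‖s q y * ε q.1 (D.pr y) S‖ ≤ ‖V q y‖) :
    SumB D s := by
  refine sumB_of_lint vol hs (F := fun y => ‖rr h vol (pullKah D G K0) V y‖ₑ ^ 2)
    (hm.1.enorm.pow_const 2) ?_ fun i x hx => ?_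
  · have h1 := lintegral_rpow_enorm_lt_top_of_eLpNorm_lt_top two_ne_zero ENNReal.ofNat_ne_top hm.2
    simp only [ENNReal.toReal_ofNat, ENNReal.rpow_ofNat] at h1
    exact h1.ne
  obtain ⟨S, hS⟩ : ∃ S, ∃ᶠ x' in 𝓝 x, ε i x' S ≠ 0 := by
    by_contra hcon
    push Not at hcon
    refine hne i x hx ?_
    filter_upwards [eventually_all.2 hcon] with x' hx'
    exact not_not.2 (funext hx')
  refine ⟨fun x => ε i x S, hε i S, hS, fun C hC hCs => ?_⟩
  obtain ⟨c, -, hc⟩ := quad_lb (Q := fun x (y : FI n → ℂ) => w0 i x * (gq K0 i x y y).re) hC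
    ((((hw0 i).mono hCs).comp continuousOn_fst fun p hp => hp.1).mul
      (Complex.continuous_re.comp_continuousOn (contOn_gq K0 continuousOn_fst
        (fun p hp => hCs hp.1) continuousOn_snd continuousOn_snd)))
    (fun z y r => by rw [gq_smul]; ring)
    fun z hz y hy => mul_pos (hw1 i z (hCs hz)) (gq_pos K0 (hCs hz) hy)
  refine ⟨c ^ 2, fun x' hx' v => ?_⟩
  have hy : D.pt i v x' ∈ ((D.atl G).e (i, v)).source := D.pt_mem_source (p := (i, v)) (hCs hx')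
  have hv0 := vol.pos (i, v) _ hy
  rw [← ofReal_norm, ← ENNReal.ofReal_pow (norm_nonneg _), ← ENNReal.ofReal_mul hv0.le,
    ← ENNReal.ofReal_mul (sq_nonneg c), rr_eq h vol _ hV hy, norm_tV h vol _ hy,
    mul_inv_cancel_left₀ hv0.ne']
  refine ENNReal.ofReal_le_ofReal ?_
  have h1 : ‖s (i, v) (D.pt i v x') * ε i x' S‖ ≤ ‖V (i, v) (D.pt i v x')‖ := hVs _ _ hy S
  refine (pow_le_pow_left₀ (norm_nonneg _) h1 2).trans ((hc x' hx' _).trans ?_)
  refine mul_le_mul_of_nonneg_left ?_ (sq_nonneg c)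
  exact mul_le_mul_of_nonneg_right (hw (i, v) _ hy) (gq_nonneg K0 (hCs hx') _)

/-- `SumB` for the coefficient of an `L²` polyvector field `V = s ε` -/
theorem sumB_of_rr (K0 : Kah A) {N' : LB (D.atl G)} (h : HM ((KB (D.atl G))⁻¹ * N'))
    (vol : HM (KB (D.atl G))⁻¹) {V : (D.atl G).ι → D.cov G → FI n → ℂ} (hV : IsV N' V)
    (hm : MemLp (rr h vol (pullKah D G K0) V) 2 (vm vol)) (w0 : A.ι → X → ℝ)
    (hw0 : ∀ i, ContinuousOn (w0 i) (A.e i).source) (hw1 : ∀ i, ∀ x ∈ (A.e i).source, 0 < w0 i x)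
    (hw : ∀ q, ∀ y ∈ ((D.atl G).e q).source, w0 q.1 (D.pr y) ≤ h.w q y)
    (ε : A.ι → X → FI n → ℂ) (hε : ∀ i S, HolAt A i univ fun x => ε i x S)
    (hne : ∀ i, ∀ x ∈ (A.e i).source, ∃ᶠ x' in 𝓝 x, ε i x' ≠ 0)
    (hs : IsHS (D.pullLB G N) univ s)
    (hVs : ∀ q, ∀ y ∈ ((D.atl G).e q).source, V q y = s q y • ε q.1 (D.pr y)) : SumB D s :=
  sumB_of_le K0 h vol hV hm w0 hw0 hw1 hw ε hε hne hs fun q y hy S => by
    refine le_trans (le_of_eq ?_) (norm_le_pi_norm _ S)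
    rw [hVs _ _ hy]
    rfl

theorem fol_freq {p : ℕ} (F : Top.Fol D p) (i : A.ι) {x : X} (hx : x ∈ (A.e i).source) :
    ∃ᶠ x' in 𝓝 x, F.e i x' ≠ 0 := by
  intro hcon
  refine F.cop i x hx (fun _ => 0) (fun _ _ => analyticAt_const) (fun S =>
    ⟨fun _ => 0, fun _ _ => analyticAt_const, ?_⟩) rfl
  filter_upwards [hcon] with y hy
  rw [not_not.1 hy]
  simp

theorem fol_hol {p : ℕ} (F : Top.Fol D p) (i : A.ι) (S : FI n) :
    HolAt A i univ fun x => (Sbi ℂ n *ᵥ F.e i x) S := by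
  simp only [Crest.Agent.R273.Berezin_505.Sbi_mulVec]
  exact (F.tom.hol i _).const_mul _

theorem fol_freq' {p : ℕ} (F : Top.Fol D p) (i : A.ι) {x : X} (hx : x ∈ (A.e i).source) :
    ∃ᶠ x' in 𝓝 x, Sbi ℂ n *ᵥ F.e i x' ≠ 0 :=
  (fol_freq F i hx).mono fun x' hx' h0 => hx' (by
    have h1 := congrArg (fun u => Sb ℂ n *ᵥ u) h0
    simpa only [Matrix.mulVec_mulVec, Crest.Agent.R273.Berezin_505.Sb_mul_Sbi, Matrix.one_mulVec,
      Matrix.mulVec_zero] using h1)

/-- the form `V = s • Sbi e` -/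
theorem sumB_fol {p : ℕ} (F : Top.Fol D p) (K0 : Kah A) {N' : LB (D.atl G)}
    (h : HM ((KB (D.atl G))⁻¹ * N')) (vol : HM (KB (D.atl G))⁻¹)
    {V : (D.atl G).ι → D.cov G → FI n → ℂ} (hV : IsV N' V)
    (hm : MemLp (rr h vol (pullKah D G K0) V) 2 (vm vol)) (w0 : A.ι → X → ℝ)
    (hw0 : ∀ i, ContinuousOn (w0 i) (A.e i).source) (hw1 : ∀ i, ∀ x ∈ (A.e i).source, 0 < w0 i x)
    (hw : ∀ q, ∀ y ∈ ((D.atl G).e q).source, w0 q.1 (D.pr y) ≤ h.w q y)
    (hs : IsHS (D.pullLB G N) univ s)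
    (hVs : ∀ q, ∀ y ∈ ((D.atl G).e q).source,
      V q y = s q y • (Sbi ℂ n *ᵥ Top.upF D F.e q y)) : SumB D s :=
  sumB_of_rr K0 h vol hV hm w0 hw0 hw1 hw (fun i x => Sbi ℂ n *ᵥ F.e i x) (fol_hol F)
    (fun i _ hx => fol_freq' F i hx) hs hVs

end

end Crest.Agent.X261.Hc
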