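import Crest.Agent.X261.Hc.PoinC
import Crest.Agent.X261.Jet.TbI

/-!
# Row 261, POIN (helper17), part D: adapters for JET

* `sumB_prj` : `SumB` from `prj r V = s • Sbi e`, `V ∈ L²`;
* `wr_of_qt`, `wr` : independence of the Wronskians from the `1`-jets of `s_k / σ`;
* `jet_end`  : the conclusion of `Top.JetStmt`.
-/

set_option autoImplicit false
set_option linter.unusedSectionVars false
set_option linter.dupNamespace false

open Set Filter Topology Metric MeasureTheory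
open scoped ENNReal Matrix

namespace Crest.Agent.X261.Hc

open Crest.Agent.R275.Geo Crest.Agent.R275.Core144
open Crest.Agent.R275.OmT75 (dl dj)
open Crest.Agent.R273.UCov_914 Crest.Agent.R273.Defs_333 Crest.Agent.R273.Kah_333
open Crest.Agent.R273.Vm_333
open Crest.Agent.R273.Fock_243 (FI)
open Crest.Agent.R273.BKNa_37 (IsV)
open Crest.Agent.R273.Berezin_505 (Sb Sbi)
open Crest.Agent.R273.RMan4_798 (pullKah)
open Crest.Agent.X261.Jet.Fr Crest.Agent.X261.Jet.Tb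

noncomputable section

variable {n p : ℕ}

section wr

variable {M : Type} [TopologicalSpace M] {B : Atl n M} {T : Set M} {L : LB B} [Countable B.ι]
  {σ : B.ι → M → ℂ} {π : M → Cn p} {i : B.ι} {x : M}

theorem dl_mul_hol {f g : M → ℂ} (hT : IsOpen T) (hf : HolAt B i T f) (hg : HolAt B i T g)
    (hx : x ∈ T) (hi : x ∈ (B.e i).source) (a : Fin n) :
    dl B i a (fun y => f y * g y) x = f x * dl B i a g x + g x * dl B i a f x := by
  have h1 := hf.diffAt hT hi hx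
  have h2 := hg.diffAt hT hi hx
  unfold dl
  rw [dj_eq (h1.fun_mul h2), dj_eq h1, dj_eq h2, fderiv_fun_mul h1 h2, (B.e i).left_inv hi]
  simp

theorem dl_sub_hol {f g : M → ℂ} (hT : IsOpen T) (hf : HolAt B i T f) (hg : HolAt B i T g)
    (hx : x ∈ T) (hi : x ∈ (B.e i).source) (a : Fin n) :
    dl B i a (fun y => f y - g y) x = dl B i a f x - dl B i a g x := by
  have h1 := hf.diffAt hT hi hx
  have h2 := hg.diffAt hT hi hx
  unfold dl
  rw [dj_eq (h1.fun_sub h2), dj_eq h1, dj_eq h2, fderiv_fun_sub h1 h2]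
  simp

theorem dl_const' (c : ℂ) (a : Fin n) : dl B i a (fun _ => c) x = 0 := by
  unfold dl
  rw [dj_eq (differentiableAt_const c)]
  simp

theorem qt_hol' (F : Frm L T σ) {s : B.ι → M → ℂ} (hs : IsHS L univ s) (i : B.ι) :
    HolAt B i T (qt s σ) :=
  F.qt_hol (fun i => (hs.hol i).mono (subset_univ _))
    (fun i j y _ hy => hs.tr i j y hy (mem_univ _)) i

theorem wr_of_qt (hT : IsOpen T) (F : Frm L T σ) (s : Fin (p + 1) → B.ι → M → ℂ)
    (hs : ∀ k, IsHS L univ (s k)) (hx : x ∈ T) (hi : x ∈ (B.e i).source)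
    (h0 : qt (s 0) σ x ≠ 0)
    (hl : LinearIndependent ℂ fun (k : Fin p) (a : Fin n) =>
      qt (s 0) σ x * dl B i a (qt (s k.succ) σ) x - qt (s k.succ) σ x * dl B i a (qt (s 0) σ) x) :
    s 0 i x ≠ 0 ∧ LinearIndependent ℂ fun (k : Fin p) (a : Fin n) =>
      s 0 i x * dl B i a (s k.succ i) x - s k.succ i x * dl B i a (s 0 i) x := by
  have hv : ∀ k, ∀ y ∈ T, y ∈ (B.e i).source → s k i y = qt (s k) σ y * σ i y := by
    intro k y hy hy'
    rw [F.qt_eq (fun i j y _ hy => (hs k).tr i j y hy (mem_univ _)) hy hy',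
      div_mul_cancel₀ _ (F.ne i y hy hy')]
  have hd : ∀ k a, dl B i a (s k i) x =
      qt (s k) σ x * dl B i a (σ i) x + σ i x * dl B i a (qt (s k) σ) x := by
    intro k a
    rw [← dl_mul_hol hT (qt_hol' F (hs k) i) (F.hol i) hx hi]
    refine dl_congr' hi ?_ a
    filter_upwards [hT.mem_nhds hx, (B.e i).open_source.mem_nhds hi] with y h1 h2 using hv k y h1 h2
  have hσ := F.ne i x hx hi
  refine ⟨by rw [hv 0 x hx hi]; exact mul_ne_zero h0 hσ, ?_⟩
  have h1 := hl.units_smul fun _ : Fin p => Units.mk0 (σ i x ^ 2) (pow_ne_zero 2 hσ)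
  refine (congrArg (fun v : Fin p → Fin n → ℂ => LinearIndependent ℂ v) ?_).mpr h1
  funext t a
  simp only [hd, hv _ x hx hi, Pi.smul_apply', Units.smul_mk0, Pi.smul_apply, smul_eq_mul]
  ring

/-- the functions `1, t_1, …, t_p` -/
def ak (k : Fin (p + 1)) (t : Cn p) : ℂ := Fin.cons (α := fun _ => ℂ) 1 (fun l => t l) k

@[simp] theorem ak_zero (t : Cn p) : ak 0 t = 1 := rfl
@[simp] theorem ak_succ (k : Fin p) (t : Cn p) : ak k.succ t = t k := rfl

/-- `s_k / σ - a_k (π)` vanishes to order two at `x` -/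
theorem wr (H : Sbm B T π) (F : Frm L T σ) (s : Fin (p + 1) → B.ι → M → ℂ)
    (hs : ∀ k, IsHS L univ (s k)) (hx : x ∈ T) (hi : x ∈ (B.e i).source)
    (hv : ∀ k, qt (s k) σ x = ak k (π x))
    (hd : ∀ k a, dl B i a (fun y => qt (s k) σ y - ak k (π y)) x = 0) :
    s 0 i x ≠ 0 ∧ LinearIndependent ℂ fun (k : Fin p) (a : Fin n) =>
      s 0 i x * dl B i a (s k.succ i) x - s k.succ i x * dl B i a (s 0 i) x := by
  have h0 : ∀ a, dl B i a (qt (s 0) σ) x = 0 := fun a => by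
    have h1 := hd 0 a
    simp only [ak_zero] at h1
    rwa [dl_sub_hol H.opn (qt_hol' F (hs 0) i) (holAt_const 1) hx hi, dl_const', sub_zero] at h1
  have h1 : ∀ (k : Fin p) a, dl B i a (qt (s k.succ) σ) x = dp B i π x k a := fun k a => by
    have h1 := hd k.succ a
    simp only [ak_succ] at h1
    rw [dl_sub_hol H.opn (qt_hol' F (hs _) i) (H.holAt i k) hx hi] at h1
    exact sub_eq_zero.1 h1
  refine wr_of_qt H.opn F s hs hx hi (by rw [hv 0]; exact one_ne_zero) ?_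
  have h2 := Plk.twdg_ne_zero_iff.1 (H.dW_ne hx hi)
  refine (congrArg (fun v : Fin p → Fin n → ℂ => LinearIndependent ℂ v) ?_).mpr h2
  funext t a
  rw [h0, h1, hv 0]
  simp only [ak_zero, one_mul, mul_zero, sub_zero]
  rfl

end wr

variable {X : Type} [TopologicalSpace X] {A : Atl n X} {G : Type} [Group G] {D : MonD A G}
  [Countable A.ι] [Countable G] [MeasurableSpace (D.cov G)] [BorelSpace (D.cov G)]

/-- the form used in JET: `prj r V = s • Sbi e` -/
theorem sumB_prj {N : LB A} {s : (D.atl G).ι → D.cov G → ℂ} (F : Top.Fol D p) (K0 : Kah A)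
    {N' : LB (D.atl G)} (h : HM ((KB (D.atl G))⁻¹ * N')) (vol : HM (KB (D.atl G))⁻¹)
    {V : (D.atl G).ι → D.cov G → FI n → ℂ} (hV : IsV N' V)
    (hm : MemLp (rr h vol (pullKah D G K0) V) 2 (vm vol)) (w0 : A.ι → X → ℝ)
    (hw0 : ∀ i, ContinuousOn (w0 i) (A.e i).source) (hw1 : ∀ i, ∀ x ∈ (A.e i).source, 0 < w0 i x)
    (hw : ∀ q, ∀ y ∈ ((D.atl G).e q).source, w0 q.1 (D.pr y) ≤ h.w q y)
    (hs : IsHS (D.pullLB G N) univ s) {r : ℕ}
    (hVs : ∀ q, ∀ y ∈ ((D.atl G).e q).source,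
      prj r (V q y) = s q y • (Sbi ℂ n *ᵥ Top.upF D F.e q y)) : SumB D s :=
  sumB_of_le K0 h vol hV hm w0 hw0 hw1 hw (fun i x => Sbi ℂ n *ᵥ F.e i x) (fol_hol F)
    (fun i _ hx => fol_freq' F i hx) hs fun q y hy S => by
      have h1 : s q y * (Sbi ℂ n *ᵥ F.e q.1 (D.pr y)) S = prj r (V q y) S :=
        (congrFun (hVs q y hy) S).symm
      rw [h1]
      unfold prj
      split_ifs
      · exact norm_le_pi_norm _ S
      · simp

/-- **end of JET** -/
theorem jet_end (F : Top.Fol D p) (K0 : Kah A) {k : ℕ} (hk : 0 < k)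
    {N' : LB (D.atl G)} (h : HM ((KB (D.atl G))⁻¹ * N')) (vol : HM (KB (D.atl G))⁻¹)
    (w0 : A.ι → X → ℝ)
    (hw0 : ∀ i, ContinuousOn (w0 i) (A.e i).source) (hw1 : ∀ i, ∀ x ∈ (A.e i).source, 0 < w0 i x)
    (hw : ∀ q, ∀ y ∈ ((D.atl G).e q).source, w0 q.1 (D.pr y) ≤ h.w q y)
    {T : Set (D.cov G)} {π : D.cov G → Cn p} (H : Sbm (D.atl G) T π)
    {σ : (D.atl G).ι → D.cov G → ℂ} (Fσ : Frm (D.pullLB G (F.L ^ k)) T σ)
    {q : (D.atl G).ι} {x : D.cov G} (hx : x ∈ T) (hq : x ∈ ((D.atl G).e q).source) {r : ℕ}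
    (hex : ∀ t : Fin (p + 1), ∃ (V : (D.atl G).ι → D.cov G → FI n → ℂ)
      (s : (D.atl G).ι → D.cov G → ℂ), IsV N' V ∧
      MemLp (rr h vol (pullKah D G K0) V) 2 (vm vol) ∧ IsHS (D.pullLB G (F.L ^ k)) univ s ∧
      (∀ q, ∀ y ∈ ((D.atl G).e q).source,
        prj r (V q y) = s q y • (Sbi ℂ n *ᵥ Top.upF D F.e q y)) ∧
      qt s σ x = ak t (π x) ∧ ∀ a, dl (D.atl G) q a (fun y => qt s σ y - ak t (π y)) x = 0) :
    ∃ (m : ℕ) (s : Fin (p + 1) → A.ι → X → ℂ), 0 < m ∧ (∀ t, IsHS (F.L ^ m) univ (s t)) ∧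
      ∃ i, ∃ x ∈ (A.e i).source, (Top.wdg fun (t : Fin p) (a : Fin n) =>
        s 0 i x * dl A i a (s t.succ i) x - s t.succ i x * dl A i a (s 0 i) x) ≠ 0 := by
  choose V s hV hm hs hVs hv hd using hex
  obtain ⟨h0, hl⟩ := wr H Fσ s hs hx hq hv hd
  exact poin_wdg hk s hs
    (fun t => sumB_prj F K0 h vol (hV t) (hm t) w0 hw0 hw1 hw (hs t) (hVs t)) hq h0 hl

end

end Crest.Agent.X261.Hc
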